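import Mathlib
import Crest.Agent.N265.Br.Shf
import Crest.Agent.N265.Br.Ample
import Crest.Agent.R270.Iso6_927
import Crest.Agent.R274.Brg3_883
import Crest.Agent.R013.CE5_280
import Crest.Agent.R013.Div6_280

-- ▼ part N265/Br/Coh
section

/-!
# Row 265, bridge, part 9 (helper42): `H¹(O) = 0` and `H²(O) = 0` in elementary terms

* `cech1`, `cous_of_H1` : consequences of `H¹(X, O) = 0`;
* `cech2_aux`, `aff_lift`, `cech2` : consequences of `H²(X, O) = 0`.
-/

set_option autoImplicit false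
set_option linter.unusedSectionVars false

open AlgebraicGeometry CategoryTheory Limits Order TopologicalSpace Topology Filter
open Crest.AlgGeometry.Prelude
open Crest.Agent.R274.Br179

namespace Crest.Agent.N265.Br

universe w u

noncomputable section

section Sch

variable (X : Scheme.{u})

/-- the structure sheaf as an abelian sheaf -/
abbrev OX : Sh X := (SheafOfModules.toSheaf X.ringCatSheaf).obj (SheafOfModules.unit X.ringCatSheaf)

variable {X} [IsIntegral X]

/-- sections as rational functions -/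
def toK (U : X.Opens) (hU : genericPoint X ∈ U) : Sc (OX X) U →+ X.functionField :=
  (X.presheaf.germ U (genericPoint X) hU).hom.toAddMonoidHom

theorem toK_rs {U V : X.Opens} (h : V ≤ U) (hV : genericPoint X ∈ V) (s : Sc (OX X) U) :
    toK V hV (rs (OX X) h s) = toK U (h hV) s :=
  TopCat.Presheaf.germ_res_apply X.presheaf (homOfLE h) _ hV s

theorem toK_mem {U : X.Opens} (hU : genericPoint X ∈ U) (s : Sc (OX X) U) :
    toK U hU s ∈ reg (U : Set X) := by
  have : Nonempty U := ⟨⟨_, hU⟩⟩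
  exact mem_reg.2 fun x hx => ⟨X.presheaf.germ U x hx s,
    Scheme.algebraMap_germ_eq_germToFunctionField X hx s⟩

theorem exists_toK {U : X.Opens} (hU : IsAffineOpen U) (hη : genericPoint X ∈ U)
    {a : X.functionField} (ha : a ∈ reg (U : Set X)) : ∃ s, toK U hη s = a := by
  have : Nonempty U := ⟨⟨_, hη⟩⟩
  exact (mem_reg_iff_exists hU a).1 ha

variable (X) in
/-- the constant sheaf of rational functions -/
def KX : Sh X := PS fun y : X => PLift (y = genericPoint X) → X.functionField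

/-- the value of a section -/
def evK (U : X.Opens) (hU : genericPoint X ∈ U) : Sc (KX X) U →+ X.functionField where
  toFun b := (b : ∀ y : U, PLift (y.1 = genericPoint X) → X.functionField) ⟨_, hU⟩ ⟨rfl⟩
  map_zero' := rfl
  map_add' _ _ := rfl

/-- constant sections -/
def cstK (U : X.Opens) (a : X.functionField) : Sc (KX X) U :=
  (fun _ _ => a : ∀ y : U, PLift (y.1 = genericPoint X) → X.functionField)



theorem evK_inj (U : X.Opens) (hU : genericPoint X ∈ U) : Function.Injective (evK U hU) := by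
  intro b b' h
  funext ⟨y, hy⟩ ⟨e⟩
  obtain rfl : y = genericPoint X := e
  exact h

variable (X) in
/-- the inclusion `O → K` -/
def iK : OX X ⟶ KX X :=
  toPS (OX X) (fun U y => AddMonoidHom.pi fun _ => toK U (generic_mem y.2))
    fun _ _ h y s => funext fun _ => toK_rs h (generic_mem y.2) s

theorem evK_iK (U : X.Opens) (hU : genericPoint X ∈ U) (s : Sc (OX X) U) :
    evK U hU (ap (iK X) U s) = toK U hU s := rfl

instance : Mono (iK X) := by
  refine mono_of_inj _ fun U => (injective_iff_map_eq_zero _).2 fun s hs => ?_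
  refine eq_zero_of_local _ s fun x hx => ⟨U, le_rfl, hx, ?_⟩
  have : Nonempty U := ⟨⟨x, hx⟩⟩
  have h1 : toK U (generic_mem hx) s = 0 := by rw [← evK_iK, hs, map_zero]
  have h2 : s = 0 := X.germToFunctionField_injective U (h1.trans (map_zero _).symm)
  rw [h2, map_zero]

instance [CharZero X.functionField] : Injective (KX X) := injective_PS fun _ => inferInstance

variable (X) in
/-- all principal parts -/
def AX : Sh X := PS fun y : X => X.functionField ⧸ (loc y).toAddSubgroup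

variable (X) in
/-- the principal parts of a rational function -/
def dK : KX X ⟶ AX X :=
  toPS (KX X) (fun U y => (QuotientAddGroup.mk' _).comp (evK U (generic_mem y.2)))
    fun _ _ _ _ _ => rfl

theorem iK_dK : iK X ≫ dK X = 0 := by
  refine hom_ext fun U s => funext fun y => ?_
  exact (QuotientAddGroup.eq_zero_iff _).2 (mem_reg.1 (toK_mem (generic_mem y.2) s) y.1 y.2)

variable (X) in
/-- `K / O → ∏ K / O_y` -/
def dQ : cokernel (iK X) ⟶ AX X := cokernel.desc _ (dK X) iK_dK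

theorem dQ_π (U : X.Opens) (b : Sc (KX X) U) (y : U) :
    (ap (dQ X) U (ap (cokernel.π (iK X)) U b) :
      ∀ y : U, X.functionField ⧸ (loc y.1).toAddSubgroup) y =
      QuotientAddGroup.mk (evK U (generic_mem y.2) b) := by
  rw [← ap_comp, dQ, cokernel.π_desc]
  rfl

instance : Mono (dQ X) := by
  refine mono_of_inj _ fun U => (injective_iff_map_eq_zero _).2 fun q hq => ?_
  refine eq_zero_of_local _ q fun x hx => ?_
  obtain ⟨V, hV, hxV, b, hb⟩ := loc_surj (cokernel.π (iK X)) q hx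
  obtain ⟨T, hT, hxT, hTV⟩ := Opens.isBasis_iff_nbhd.mp X.isBasis_affineOpens hxV
  refine ⟨T, hTV.trans hV, hxT, ?_⟩
  have h1 : evK V (generic_mem hxV) b ∈ reg (T : Set X) := mem_reg.2 fun y hy => by
    have h2 := dQ_π V b ⟨y, hTV hy⟩
    rw [hb, ap_rs, hq, map_zero] at h2
    exact (QuotientAddGroup.eq_zero_iff _).1 h2.symm
  obtain ⟨s, hs⟩ := exists_toK hT (generic_mem hxT) h1
  have h2 : ap (iK X) T s = rs (KX X) hTV b := evK_inj T (generic_mem hxT) hs
  rw [← rs_rs _ hV hTV, ← hb, ← ap_rs, ← h2, π_ap]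

variable [HasExt.{w} (Sh X)]

theorem cech1 [X.IsSeparated] [Subsingleton (Sheaf.H (OX X) 1)] {ι : Type u} (U : ι → X.Opens)
    (hU : ∀ i, IsAffineOpen (U i)) (hη : ∀ i, genericPoint X ∈ U i) (hc : ∀ x, ∃ i, x ∈ U i)
    (a : ι → X.functionField) (ha : ∀ i j, ∀ y ∈ U i, y ∈ U j → a i - a j ∈ loc y) :
    ∃ f, ∀ i, a i - f ∈ reg (U i : Set X) := by
  obtain ⟨c, hc⟩ := glue (iK X) U hc (fun i => cstK (U i) (a i)) fun i j => by
    have h1 : genericPoint X ∈ U i ⊓ U j := ⟨hη i, hη j⟩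
    obtain ⟨s, hs⟩ := exists_toK ((hU i).inf (hU j)) h1 (a := a i - a j)
      (mem_reg.2 fun y hy => ha i j y hy.1 hy.2)
    exact ⟨s, evK_inj _ h1 hs⟩
  refine ⟨evK ⊤ trivial c, fun i => ?_⟩
  obtain ⟨o, ho⟩ := hc i
  have h1 := toK_mem (hη i) o
  rwa [← evK_iK, ho] at h1

theorem cech2_aux [CharZero X.functionField] [Subsingleton (Sheaf.H (OX X) 2)] {ι : Type u}
    (U : ι → X.Opens) (hc : ∀ x, ∃ i, x ∈ U i) (a : ι → ι → X.functionField)
    (ha : ∀ i j l, ∀ y ∈ U i, y ∈ U j → y ∈ U l → a i l - a j l - a i j ∈ loc y) :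
    ∃ φ : ι → X → X.functionField, (∀ i, ∀ x ∈ U i, ∃ e, ∀ᶠ y in 𝓝 x, φ i y - e ∈ loc y) ∧
      ∀ i j, ∀ y ∈ U i, y ∈ U j → φ i y - φ j y - a i j ∈ loc y := by
  have := H_shift (iK X)
  choose idx hidx using id hc
  obtain ⟨c, hc⟩ := glue (dQ X) U hc (fun i => (fun y => QuotientAddGroup.mk (a i (idx y.1)) :
      ∀ y : U i, X.functionField ⧸ (loc y.1).toAddSubgroup)) fun i j => by
    refine ⟨ap (cokernel.π (iK X)) _ (cstK _ (a i j)), funext fun y => ?_⟩
    refine (dQ_π _ _ y).trans ?_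
    refine Eq.trans ?_ (QuotientAddGroup.mk_sub _ (a i (idx y.1)) (a j (idx y.1)))
    refine (QuotientAddGroup.eq_iff_sub_mem.2 ?_).symm
    exact ha i j _ y.1 y.2.1 y.2.2 (hidx y.1)
  let c' : X → X.functionField := fun y =>
    ((c : ∀ y : (⊤ : X.Opens), X.functionField ⧸ (loc y.1).toAddSubgroup) ⟨y, trivial⟩).out
  refine ⟨fun i y => a i (idx y) - c' y, fun i x hx => ?_, fun i j y hi hj => ?_⟩
  · obtain ⟨q, hq⟩ := hc i
    obtain ⟨V, hV, hxV, b, hb⟩ := loc_surj (cokernel.π (iK X)) q hx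
    refine ⟨evK V (generic_mem hxV) b, ?_⟩
    filter_upwards [V.isOpen.mem_nhds hxV] with y hy
    have h1 := dQ_π V b ⟨y, hy⟩
    rw [hb, ap_rs, hq] at h1
    refine QuotientAddGroup.eq_iff_sub_mem.1 (Eq.trans ?_ h1)
    rw [QuotientAddGroup.mk_sub, QuotientAddGroup.out_eq']
    rfl
  · rw [sub_sub_sub_cancel_right]
    exact ha i j _ y hi hj (hidx y)

end Sch

variable {k : Type u} [Field k] {W : IntegralKScheme k} [LocFact W.X] [CompactSpace W.X]


/-- Cousin data on an affine open set are trivial -/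
theorem aff_lift {U : W.X.Opens} (hU : IsAffineOpen U) (hne : Nonempty U) (φ : W.X → W.FnField)
    (hφ : ∀ x ∈ U, ∃ e, ∀ᶠ y in 𝓝 x, φ y - e ∈ loc y) : ∃ f, ∀ y ∈ U, φ y - f ∈ loc y := by
  classical
  have key : ∀ x : U, ∃ (e : W.FnField) (h : reg (U : Set W.X)) (A : W.X.Opens), x.1 ∈ A ∧
      (∀ y, y ∈ A ↔ y ∈ U ∧ h.1 ∉ van y) ∧ ∀ y ∈ A, φ y - e ∈ loc y := by
    intro x
    obtain ⟨e, he⟩ := hφ x.1 x.2
    obtain ⟨h, hh, A, -, hxA, hA, hP⟩ := exists_basic hU x.2 he
    exact ⟨e, ⟨h, hh⟩, A, hxA, hA, hP⟩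
  choose e h A hxA hA hP using key
  obtain ⟨T, hT⟩ := hU.isCompact.elim_finite_subcover (fun x => (A x : Set W.X))
    (fun x => (A x).isOpen) fun x hx => Set.mem_iUnion.2 ⟨⟨x, hx⟩, hxA _⟩
  have hcov : ∀ y ∈ U, ∃ b ∈ T, y ∈ A b := fun y hy => by simpa using hT hy
  have hfin : (⋃ p ∈ T ×ˢ T, (fun z => (e p.1 - e p.2, z)) ''
      {z : W.X | Scheme.ord (X := W.X) (e p.1 - e p.2) z ≠ 0}).Finite :=
    (T ×ˢ T).finite_toSet.biUnion fun p _ => by
      refine Set.Finite.image _ ?_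
      by_cases h0 : e p.1 - e p.2 = 0
      · simp [h0]
      · exact finite_ord _ h0
  obtain ⟨N, hN, hNT⟩ := exists_nat_gt_fin hfin fun p => - Scheme.ord (X := W.X) p.1 p.2
  have hspan : Ideal.span (Set.range fun c : T => h c.1 ^ N) = ⊤ := by
    by_contra hcon
    obtain ⟨m, hm, hle⟩ := Ideal.exists_le_maximal _ hcon
    obtain ⟨x, hx, hxm⟩ := Crest.Agent.R270.Dic327.exists_point_of_prime hU m
    obtain ⟨b, hb, hxb⟩ := hcov x hx
    exact ((hA b x).1 hxb).2 ((hxm _).1
      (hm.isPrime.mem_of_pow_mem N (hle (Ideal.subset_span ⟨⟨b, hb⟩, rfl⟩))))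
  obtain ⟨r, hr⟩ := Ideal.mem_span_range_iff_exists_fun.1 (hspan ▸ Submodule.mem_top (x := 1))
  have hr' : ∑ c : T, (r c).1 * (h c.1).1 ^ N = 1 := by
    have := congrArg (reg (U : Set W.X)).subtype hr
    simpa using this
  refine ⟨∑ c : T, (r c).1 * (h c.1).1 ^ N * e c.1, fun y hy => ?_⟩
  obtain ⟨b, hb, hyb⟩ := hcov y hy
  have h1 : φ y - ∑ c : T, (r c).1 * (h c.1).1 ^ N * e c.1 =
      (φ y - e b) + ∑ c : T, (r c).1 * ((h c.1).1 ^ N * (e b - e c.1)) := by
    simp only [mul_sub, Finset.sum_sub_distrib, ← mul_assoc, ← Finset.sum_mul, hr']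
    ring
  rw [h1]
  refine add_mem (hP b y hyb) (Subring.sum_mem _ fun c _ => mul_mem (mem_reg.1 (r c).2 y hy) ?_)
  by_cases h0 : e b - e c.1 = 0
  · rw [h0, mul_zero]; exact zero_mem _
  have hc0 : (h c.1).1 ≠ 0 := ne_zero_of_notMem_van ((hA _ _).1 (hxA c.1)).2
  refine mem_loc_iff.2 fun z hz => ?_
  have hzb : z ∈ A b := hz.mem_open (A b).isOpen hyb
  have hzU := ((hA b z).1 hzb).1
  have h2 := ord_nonneg_of_mem_loc specializes_rfl (mem_reg.1 (h c.1).2 z hzU)
  rw [Scheme.ord_mul (pow_ne_zero _ hc0) h0, ord_pow]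
  by_cases hzc : z ∈ A c.1
  · have h3 : e b - e c.1 ∈ loc z := by
      have := sub_mem (hP c.1 z hzc) (hP b z hzb)
      rwa [sub_sub_sub_cancel_left] at this
    exact add_nonneg (mul_nonneg (Nat.cast_nonneg _) h2) (ord_nonneg_of_mem_loc specializes_rfl h3)
  · by_cases h3 : Scheme.ord (X := W.X) (e b - e c.1) z = 0
    · rw [h3, add_zero]; exact mul_nonneg (Nat.cast_nonneg _) h2
    · have h4 : (h c.1).1 ∈ van z := by
        by_contra h5
        exact hzc ((hA _ _).2 ⟨hzU, h5⟩)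
      have h5 := ord_pos_of_mem_van ((IsWD.ord (V := W) h0).codim z h3) hc0 h4
      have h6 : - Scheme.ord (X := W.X) (e b - e c.1) z < N := hNT (e b - e c.1, z)
        (Set.mem_iUnion₂.2 ⟨(b, c.1), Finset.mem_product.2 ⟨hb, c.2⟩, z, h3, rfl⟩)
      nlinarith

variable [HasExt.{w} (Sh W.X)]

theorem cous_of_H1 [W.X.IsSeparated] [Subsingleton (Sheaf.H (OX W.X) 1)] :
    Cous (W := W) 0 ≤ Bd 0 := by
  intro φ hφ
  have key : ∀ x : W.X, ∃ A : W.X.Opens, IsAffineOpen A ∧ x ∈ A ∧ ∀ y ∈ A, φ y - φ x ∈ loc y := by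
    intro x
    obtain ⟨U, hU, hx⟩ := exists_affine x
    obtain ⟨-, -, A, hA, hxA, -, h⟩ := exists_basic hU hx (hφ x)
    exact ⟨A, hA, hxA, fun y hy => sO_zero.1 (h y hy)⟩
  choose A hA hxA h using key
  obtain ⟨f, hf⟩ := cech1 A hA (fun x => generic_mem (hxA x)) (fun x => ⟨x, hxA x⟩) φ
    fun i j y hi hj => by
      have := sub_mem (h j y hj) (h i y hi)
      rwa [sub_sub_sub_cancel_left] at this
  exact ⟨f, fun y => sO_zero.2 (mem_reg.1 (hf y) y (hxA y))⟩

theorem finH_of_H1 [W.X.IsSeparated] [Subsingleton (Sheaf.H (OX W.X) 1)] : FinH (W := W) 0 :=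
  ⟨⊥, inferInstance, cous_of_H1.trans le_sup_left⟩

theorem cech2 [CharZero k] [Subsingleton (Sheaf.H (OX W.X) 2)] {ι : Type u}
    (U : ι → W.X.Opens) (hU : ∀ i, IsAffineOpen (U i)) (hne : ∀ i, Nonempty (U i))
    (hc : ∀ x, ∃ i, x ∈ U i) (a : ι → ι → W.FnField)
    (ha : ∀ i j l, ∀ y ∈ U i, y ∈ U j → y ∈ U l → a i l - a j l - a i j ∈ loc y) :
    ∃ f : ι → W.FnField, ∀ i j, ∀ y ∈ U i, y ∈ U j → f i - f j - a i j ∈ loc y := by
  have : CharZero W.X.functionField := 
    charZero_of_injective_algebraMap (algebraMap k W.FnField).injective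
  obtain ⟨φ, h1, h2⟩ := cech2_aux U hc a ha
  choose f hf using fun i => aff_lift (hU i) (hne i) (φ i) (h1 i)
  refine ⟨f, fun i j y hi hj => ?_⟩
  have := add_mem (sub_mem (h2 i j y hi hj) (hf i y hi)) (hf j y hj)
  convert this using 1
  ring

end

end Crest.Agent.N265.Br
end

-- ▼ part N265/Br/Emb
section

/-!
# Row 265, bridge, part 7 (helper42): the embedding into projective space

* `EmbD.exists_emb` : coordinates `EmbD` give a closed immersion into `P^N` (proper varieties);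
* `projective` : a smooth proper surface with `h¹(O) < ∞` is projective; `toSPV`.
-/

set_option autoImplicit false
set_option linter.unusedSectionVars false
set_option linter.style.haveILetI false

open AlgebraicGeometry CategoryTheory Order TopologicalSpace Topology Filter
open Crest.AlgGeometry.Prelude HomogeneousLocalization
open Crest.Agent.R274.Br179
open Crest.Agent.R270.Iso_927 Crest.Agent.R270.EqEasy_191

namespace Crest.Agent.N265.Br

universe u

noncomputable section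

section Th

variable {k : Type u} [Field k] {N : ℕ} {A : Type u} [CommRing A] [Algebra k A]

theorem th_mk (v : Fin (N + 1) → A) {f : MvPolynomial (Fin (N + 1)) k} {m : ℕ} (hm : f ∈ projGrading k N m)
    (hf : IsUnit (Crest.Agent.R270.Iso_927.ev v f)) (n : ℕ) (p : MvPolynomial (Fin (N + 1)) k)
    (hp : p ∈ projGrading k N (n • m)) :
    th v f hf (Away.mk (projGrading k N) hm n p hp) * Crest.Agent.R270.Iso_927.ev v f ^ n =
      Crest.Agent.R270.Iso_927.ev v p := by
  rw [th_apply, Away.val_mk, Localization.mk_eq_mk'_apply, ← thL_algebraMap v f hf p,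
    ← thL_algebraMap v f hf f, ← map_pow, ← map_pow, ← map_mul]
  congr 1
  exact IsLocalization.mk'_spec (Localization.Away f) p (⟨f ^ n, n, rfl⟩ : Submonoid.powers f)

theorem th_surj (v : Fin (N + 1) → A) (j : Fin (N + 1)) (hj : v j = 1)
    (hu : IsUnit (Crest.Agent.R270.Iso_927.ev (k := k) v (MvPolynomial.X j)))
    (hv : Algebra.adjoin k (Set.range v) = ⊤) : Function.Surjective (th v (MvPolynomial.X j) hu) := by
  intro r
  have hr : r ∈ Algebra.adjoin k (Set.range v) := by rw [hv]; trivial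
  change r ∈ (th v (MvPolynomial.X j) hu).range
  induction hr using Algebra.adjoin_induction with
  | mem x hx =>
    obtain ⟨i, rfl⟩ := hx
    have h := th_mk v (X_mem k N j) hu 1 (MvPolynomial.X i) (by simpa using X_mem k N i)
    rw [ev_X, ev_X, hj, one_pow, mul_one] at h
    exact ⟨_, h⟩
  | algebraMap c =>
    refine ⟨Crest.Agent.R270.EqEasy_191.cst k N j c, ?_⟩
    rw [th_apply, Crest.Agent.R270.EqEasy_191.val_cst]
    exact (thL_algebraMap v _ hu _).trans (ev_C v c)
  | add x y _ _ hx hy => exact add_mem hx hy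
  | mul x y _ _ hx hy => exact mul_mem hx hy

theorem pt_mem (v : Fin (N + 1) → A) (j : Fin (N + 1)) (hj : v j = 1) (hu : IsUnit (v j))
    (i : Fin (N + 1)) (q : Spec (CommRingCat.of A)) :
    pt k v j hu q ∈ Proj.basicOpen (projGrading k N) (MvPolynomial.X i) ↔ v i ∉ q.asIdeal := by
  have hu' : IsUnit (Crest.Agent.R270.Iso_927.ev (k := k) v (MvPolynomial.X j)) := by
    rw [ev_X]; exact hu
  have h1 := Proj.awayι_preimage_basicOpen (projGrading k N) (X_mem k N j) one_pos (X_mem k N i)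
    one_pos
  have h2 := th_mk v (X_mem k N j) hu' 1 (MvPolynomial.X i ^ 1) (by simpa using X_mem k N i)
  rw [map_pow, ev_X, ev_X, hj, one_pow, mul_one, pow_one (v i)] at h2
  change (Spec.map (CommRingCat.ofHom (th v _ hu'))) q ∈
    Proj.awayι (projGrading k N) _ (X_mem k N j) one_pos ⁻¹ᵁ Proj.basicOpen _ _ ↔ _
  rw [h1, ← h2]
  rfl

end Th

variable {k : Type u} [Field k] {W : IntegralKScheme k}

/-- sections as rational functions -/
def toF (U : W.X.Opens) [Nonempty U] :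
    letI := sAlg W U
    Γ(W.X, U) →ₐ[k] W.FnField :=
  letI := sAlg W U
  { algebraMap Γ(W.X, U) W.X.functionField with
    commutes' := fun c => RingHom.congr_fun (germ_secMap W U (genericPoint W.X)
      (generic_mem (Classical.arbitrary U).2)) c }

theorem toF_apply (U : W.X.Opens) [Nonempty U] (a : Γ(W.X, U)) :
    toF U a = algebraMap Γ(W.X, U) W.X.functionField a := rfl

theorem toF_inj (U : W.X.Opens) [Nonempty U] : Function.Injective (toF (W := W) U) :=
  W.X.germToFunctionField_injective U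

theorem spec_toF {U : W.X.Opens} (hU : IsAffineOpen U) [Nonempty U] :
    letI := sAlg W U
    Spec.map (CommRingCat.ofHom (toF U : Γ(W.X, U) →+* W.FnField)) ≫ hU.fromSpec =
      W.X.fromSpecStalk (genericPoint W.X) :=
  hU.fromSpecStalk_eq_fromSpecStalk (generic_mem (Classical.arbitrary U).2)

theorem dom_toF (U : W.X.Opens) [Nonempty U] :
    letI := sAlg W U
    IsDominant (Spec.map (CommRingCat.ofHom (toF U : Γ(W.X, U) →+* W.FnField))) := by
  letI := sAlg W U
  refine ⟨?_⟩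
  change DenseRange (PrimeSpectrum.comap (toF U : Γ(W.X, U) →+* W.FnField))
  rw [PrimeSpectrum.denseRange_comap_iff_ker_le_nilRadical,
    (RingHom.injective_iff_ker_eq_bot (toF U : Γ(W.X, U) →+* W.FnField)).1 (toF_inj U)]
  exact bot_le

theorem van_fromSpec {U : W.X.Opens} (hU : IsAffineOpen U) [Nonempty U] (q : Spec Γ(W.X, U))
    (a : Γ(W.X, U)) : toF U a ∈ van (hU.fromSpec q) ↔ a ∈ q.asIdeal := by
  have hq : hU.fromSpec q ∈ U := by
    have : hU.fromSpec q ∈ Set.range hU.fromSpec := ⟨q, rfl⟩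
    rwa [hU.range_fromSpec] at this
  have h1 := mem_basicOpen_iff a (hU.fromSpec q)
  have h2 : hU.fromSpec q ∈ W.X.basicOpen a ↔ a ∉ q.asIdeal := by
    change q ∈ hU.fromSpec ⁻¹ᵁ W.X.basicOpen a ↔ _
    rw [hU.fromSpec_preimage_basicOpen]
    rfl
  rw [toF_apply, ← not_iff_not, ← h2, h1]
  exact ⟨fun h => ⟨hq, h⟩, fun h => h.2⟩

namespace EmbD

variable {N : ℕ} (P : EmbD W N)

theorem exists_chart (a : P.α) [Nonempty (P.A a)] :
    ∃ v : Fin (N + 1) → Γ(W.X, P.A a), v (P.b a) = 1 ∧ ∀ j, toF _ (v j) = P.t j / P.t (P.b a) := by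
  choose v hv using fun j => (mem_reg_iff_exists (P.aff a) _).1 (P.reg a j)
  refine ⟨v, toF_inj _ ?_, hv⟩
  letI := sAlg W (P.A a)
  rw [map_one, toF_apply, hv, div_self (P.ne a)]

theorem gen_pt (a₀ a : P.α) [Nonempty (P.A a)] (v : Fin (N + 1) → Γ(W.X, P.A a))
    (hu : IsUnit (v (P.b a))) (hv : ∀ j, toF _ (v j) = P.t j / P.t (P.b a)) :
    letI := sAlg W (P.A a)
    Spec.map (CommRingCat.ofHom (toF (P.A a) : Γ(W.X, P.A a) →+* W.FnField)) ≫
      pt k v (P.b a) hu = pt k (A := W.FnField) P.t (P.b a₀) (P.ne a₀).isUnit := by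
  letI := sAlg W (P.A a)
  have h2 := pt_natural v (P.b a) hu (toF (P.A a)) (hu.map _)
  have h3 : (fun i => toF (P.A a) (v i)) = fun i => (P.t (P.b a))⁻¹ * P.t i := by
    funext i
    rw [hv, div_eq_inv_mul]
  have hc := (inv_ne_zero (P.ne a)).isUnit
  have h4 := pt_smul (k := k) P.t (P.b a) (P.ne a).isUnit _ hc (hc.mul (P.ne a).isUnit)
  rw [← pt_indep (k := k) P.t (P.b a) (P.b a₀) (P.ne a).isUnit, ← h4]
  refine h2.trans ?_
  congr 1

include P in
theorem exists_mor : ∃ ι : W.X ⟶ projSpace k N, ι ≫ projSpaceToBase k N = W.toBase ∧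
    ∀ (a : P.α) [Nonempty (P.A a)] (v : Fin (N + 1) → Γ(W.X, P.A a))
      (hu : IsUnit (v (P.b a))), (∀ j, toF _ (v j) = P.t j / P.t (P.b a)) →
      letI := sAlg W (P.A a)
      (P.aff a).fromSpec ≫ ι = pt k v (P.b a) hu := by
  obtain ⟨a₀, -⟩ := P.cover (genericPoint W.X)
  have hsm := smooth_projSpaceToBase k N
  have : Smooth (projSpaceToBase k N) := hsm.smooth
  have hsep : (projSpace k N).IsSeparated := by
    have h1 : IsSeparated (Limits.terminal.from (projSpace k N)) := by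
      rw [← Limits.terminal.comp_from (projSpaceToBase k N)]
      infer_instance
    exact ⟨h1⟩
  have hbase : pt k (A := W.FnField) P.t (P.b a₀) (P.ne a₀).isUnit ≫ projSpaceToBase k N =
      W.X.fromSpecStalk (genericPoint W.X) ≫ W.toBase := by
    rw [fromSpecStalk_toBase, pt_toBase]
  obtain ⟨ι, h1, h2⟩ := exists_hom_of_local W.toBase (projSpaceToBase k N)
    (pt k (A := W.FnField) P.t (P.b a₀) (P.ne a₀).isUnit) hbase fun x => by
    obtain ⟨a, hx⟩ := P.cover x
    have : Nonempty (P.A a) := ⟨⟨x, hx⟩⟩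
    letI := sAlg W (P.A a)
    obtain ⟨v, hv1, hv⟩ := P.exists_chart a
    have hu : IsUnit (v (P.b a)) := by rw [hv1]; exact isUnit_one
    refine ⟨Spec.map (W.X.presheaf.germ _ x hx) ≫ pt k v (P.b a) hu, ?_, ?_⟩
    · rw [Category.assoc, pt_toBase, fromSpecStalk_toBase, ← Spec.map_comp]
      congr 1
      ext c
      exact RingHom.congr_fun (germ_secMap W (P.A a) x hx) c
    · rw [← P.gen_pt a₀ a v hu hv, ← Category.assoc, ← Spec.map_comp,
        TopCat.Presheaf.germ_stalkSpecializes]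
      rfl
  refine ⟨ι, h1, fun a _ v hu hv => ?_⟩
  letI := sAlg W (P.A a)
  have := dom_toF (W := W) (P.A a)
  apply ext_of_isDominant (ι := Spec.map (CommRingCat.ofHom
    (toF (P.A a) : Γ(W.X, P.A a) →+* W.FnField)))
  rw [P.gen_pt a₀ a v hu hv, ← Category.assoc, spec_toF, h2]

include P in
/-- **the closed immersion** -/
theorem exists_emb [IsProper W.toBase] :
    ∃ ι : W.X ⟶ projSpace k N, W.IsClosedEmbeddingInProjSpace N ι := by
  obtain ⟨ι, hι, hc⟩ := P.exists_mor
  have key : ∀ (a : P.α) (_ : Nonempty (P.A a)), IsPreimmersion ((P.aff a).fromSpec ≫ ι) ∧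
      ∀ q i, ι ((P.aff a).fromSpec q) ∈ Proj.basicOpen (projGrading k N) (MvPolynomial.X i) ↔
        P.t i / P.t (P.b a) ∉ van ((P.aff a).fromSpec q) := by
    intro a _
    letI := sAlg W (P.A a)
    obtain ⟨v, hv1, hv⟩ := P.exists_chart a
    have hu : IsUnit (v (P.b a)) := by rw [hv1]; exact isUnit_one
    have h1 := hc a v hu hv
    refine ⟨?_, fun q i => ?_⟩
    · have hu' : IsUnit (Crest.Agent.R270.Iso_927.ev (k := k) v (MvPolynomial.X (P.b a))) := by
        rw [ev_X]; exact hu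
      have h2 : Algebra.adjoin k (Set.range v) = ⊤ := by
        rw [eq_top_iff]
        intro r _
        have h3 : toF _ r ∈ Algebra.adjoin k (Set.range fun j => P.t j / P.t (P.b a)) :=
          P.gen a ((mem_reg_iff_exists (P.aff a) _).2 ⟨r, rfl⟩)
        rw [show (fun j => P.t j / P.t (P.b a)) = toF (P.A a) ∘ v from funext fun j => (hv j).symm,
          Set.range_comp, ← AlgHom.map_adjoin] at h3
        obtain ⟨r', hr', h4⟩ := h3
        rwa [← toF_inj _ h4]
      have h3 := IsClosedImmersion.spec_of_surjective (CommRingCat.ofHom (th v _ hu'))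
        (th_surj v _ hv1 hu' h2)
      rw [h1]
      unfold pt ptf
      infer_instance
    · rw [← Scheme.Hom.comp_apply, h1, ← hv, van_fromSpec]
      exact pt_mem v _ hv1 hu i q
  have hq : ∀ (a : P.α) (y : W.X), y ∈ P.A a → ∃ q, (P.aff a).fromSpec q = y := by
    intro a y hy
    have : y ∈ Set.range (P.aff a).fromSpec := by rw [(P.aff a).range_fromSpec]; exact hy
    exact this
  have hinj : Function.Injective ι := by
    intro y y' hyy
    obtain ⟨a, hy⟩ := P.cover y
    obtain ⟨a', hy'⟩ := P.cover y'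
    obtain ⟨q, rfl⟩ := hq a y hy
    have h1 := key a ⟨⟨_, hy⟩⟩
    have h2 : y' ∈ P.A a := by
      obtain ⟨q', rfl⟩ := hq a' y' hy'
      refine P.unit a a' _ hy' (((key a' ⟨⟨_, hy'⟩⟩).2 q' _).1 ?_)
      rw [← hyy, h1.2, div_self (P.ne a)]
      exact one_notMem_van _
    obtain ⟨q', rfl⟩ := hq a y' h2
    have h3 := h1.1
    rw [((P.aff a).fromSpec ≫ ι).isEmbedding.injective (a₁ := q) (a₂ := q') hyy]
  have hst : SurjectiveOnStalks ι := by
    refine ⟨fun y => ?_⟩
    obtain ⟨a, hy⟩ := P.cover y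
    have h1 := (key a ⟨⟨_, hy⟩⟩).1
    obtain ⟨q, rfl⟩ := hq a y hy
    have h2 := ((P.aff a).fromSpec ≫ ι).stalkMap_surjective q
    rw [Scheme.Hom.stalkMap_comp] at h2
    exact Function.Surjective.of_comp_left (f := (P.aff a).fromSpec.stalkMap q) h2
      (ConcreteCategory.bijective_of_isIso ((P.aff a).fromSpec.stalkMap q)).1
  have hpr : IsProper ι := by
    have : IsProper (ι ≫ projSpaceToBase k N) := by rw [hι]; infer_instance
    exact IsProper.of_comp ι (projSpaceToBase k N)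
  exact ⟨ι, ⟨IsClosedEmbedding.of_continuous_injective_isClosedMap ι.continuous hinj
    ι.isClosedMap⟩, hι⟩

end EmbD

/-- **projectivity** -/
theorem projective [IsAlgClosed k] [CharZero k] (V : SmPr k 2)
    (h : FinH (W := V.toIntegralKScheme) 0) : ∃ (N : ℕ) (ι : V.X ⟶ projSpace k N),
      V.toIntegralKScheme.IsClosedEmbeddingInProjSpace N ι := by
  obtain ⟨N, ⟨P⟩⟩ := exists_embD h
  have := V.proper
  exact ⟨N, P.exists_emb⟩

/-- the smooth projective surface -/
@[reducible] def toSPV [IsAlgClosed k] [CharZero k] (V : SmPr k 2)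
    (h : FinH (W := V.toIntegralKScheme) 0) : SmoothProjectiveVariety k 2 :=
  ⟨V.toIntegralKScheme, V.smooth, V.proper, projective V h⟩

end

end Crest.Agent.N265.Br
end

-- ▼ part N265/Br/Cech
section

/-!
# Row 265, bridge, part 10 (helper42): Čech cohomology of the structure sheaf of a surface

* `H1_smV`, `H2_smV`, `hh1`, `hh2` : `H^i(X, O) = 0` gives `h^i(O) = 0` for `smV M`;
* `ofScheme` : the surface of S0403 as a smooth projective variety.
-/

set_option autoImplicit false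
set_option linter.unusedSectionVars false

open AlgebraicGeometry CategoryTheory Order TopologicalSpace
open Crest.AlgGeometry.Prelude
open Crest.Agent.R274 Crest.Agent.R274.Br179 Crest.Agent.R274.Brg883 Crest.Agent.R274.Defs_781

namespace Crest.Agent.N265.Br

universe w u

noncomputable section

section Lin

variable {k : Type u} [Field k] {F : Type u} [AddCommGroup F] [Module k F]

theorem fin3_cases (I : Finset (Fin (2 + 1))) : I = ∅ ∨ I = {0} ∨ I = {1} ∨ I = {2} ∨
    I = {0, 1} ∨ I = {0, 2} ∨ I = {1, 2} ∨ I = {0, 1, 2} := by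
  revert I
  decide

theorem D01 (c : TC F 2) : D k F 2 c {0, 1} = c {1} - c {0} := by
  rw [D_apply, Finset.sum_pair (by decide), show sg (n := 2) 0 {0, 1} = 1 by decide,
    show sg (n := 2) 1 {0, 1} = -1 by decide,
    show ({0, 1} : Finset (Fin (2 + 1))).erase 0 = {1} by decide,
    show ({0, 1} : Finset (Fin (2 + 1))).erase 1 = {0} by decide]
  simp [sub_eq_add_neg]

theorem D02 (c : TC F 2) : D k F 2 c {0, 2} = c {2} - c {0} := by
  rw [D_apply, Finset.sum_pair (by decide), show sg (n := 2) 0 {0, 2} = 1 by decide,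
    show sg (n := 2) 2 {0, 2} = -1 by decide,
    show ({0, 2} : Finset (Fin (2 + 1))).erase 0 = {2} by decide,
    show ({0, 2} : Finset (Fin (2 + 1))).erase 2 = {0} by decide]
  simp [sub_eq_add_neg]

theorem D12 (c : TC F 2) : D k F 2 c {1, 2} = c {2} - c {1} := by
  rw [D_apply, Finset.sum_pair (by decide), show sg (n := 2) 1 {1, 2} = 1 by decide,
    show sg (n := 2) 2 {1, 2} = -1 by decide,
    show ({1, 2} : Finset (Fin (2 + 1))).erase 1 = {2} by decide,
    show ({1, 2} : Finset (Fin (2 + 1))).erase 2 = {1} by decide]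
  simp [sub_eq_add_neg]

theorem D012 (c : TC F 2) : D k F 2 c {0, 1, 2} = c {1, 2} - c {0, 2} + c {0, 1} := by
  rw [D_apply, Finset.sum_insert (by decide), Finset.sum_pair (by decide),
    show sg (n := 2) 0 {0, 1, 2} = 1 by decide, show sg (n := 2) 1 {0, 1, 2} = -1 by decide,
    show sg (n := 2) 2 {0, 1, 2} = 1 by decide,
    show ({0, 1, 2} : Finset (Fin (2 + 1))).erase 0 = {1, 2} by decide,
    show ({0, 1, 2} : Finset (Fin (2 + 1))).erase 1 = {0, 2} by decide,
    show ({0, 1, 2} : Finset (Fin (2 + 1))).erase 2 = {0, 1} by decide]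
  simp [sub_eq_add_neg, add_assoc]

theorem coch_ext (M : Fam k F 2) (p : ℕ) {c c' : M.coch p}
    (h : ∀ I : Finset (Fin (2 + 1)), I.card = p + 1 → c.1 I = c'.1 I) : c = c' := by
  refine Subtype.ext (funext fun I => ?_)
  by_cases hI : I.card = p + 1
  · exact h I hI
  · rw [(c.2 I).2 hI, (c'.2 I).2 hI]

theorem H1_of (M : Fam k F 2) (h : ∀ a : Fin 3 → F, a 1 - a 0 ∈ M.M {0, 1} →
    a 2 - a 0 ∈ M.M {0, 2} → a 2 - a 1 ∈ M.M {1, 2} → ∃ f, ∀ i, a i - f ∈ M.M {i}) :
    Subsingleton (M.H 1) := by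
  refine (M.cech.H_subsingleton_iff 1).2 fun c hc => ?_
  have h1 : c.1 {1, 2} - c.1 {0, 2} + c.1 {0, 1} = 0 := by
    rw [← D012 (k := k)]
    exact congrFun (congrArg Subtype.val hc) {0, 1, 2}
  have h2 : c.1 {1, 2} = c.1 {0, 2} - c.1 {0, 1} := by
    rw [← sub_eq_zero, ← h1]; abel
  obtain ⟨f, hf⟩ := h ![0, c.1 {0, 1}, c.1 {0, 2}] (by simpa using (c.2 _).1 (by decide))
    (by simpa using (c.2 _).1 (by decide)) (by simpa [← h2] using (c.2 _).1 (by decide))
  let b : TC F 2 := fun I => if I = {0} then 0 - f else if I = {1} then c.1 {0, 1} - f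
    else if I = {2} then c.1 {0, 2} - f else 0
  have b0 : b {0} = 0 - f := rfl
  have b1 : b {1} = c.1 {0, 1} - f := rfl
  have b2 : b {2} = c.1 {0, 2} - f := rfl
  have hb : b ∈ M.coch 0 := by
    intro I
    rcases fin3_cases I with rfl | rfl | rfl | rfl | rfl | rfl | rfl | rfl
    exacts [⟨fun h => absurd h (by decide), fun _ => rfl⟩,
      ⟨fun _ => hf 0, fun h => absurd rfl h⟩, ⟨fun _ => hf 1, fun h => absurd rfl h⟩,
      ⟨fun _ => hf 2, fun h => absurd rfl h⟩, ⟨fun h => absurd h (by decide), fun _ => rfl⟩,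
      ⟨fun h => absurd h (by decide), fun _ => rfl⟩, ⟨fun h => absurd h (by decide), fun _ => rfl⟩,
      ⟨fun h => absurd h (by decide), fun _ => rfl⟩]
  refine ⟨⟨b, hb⟩, coch_ext M 1 fun I hI => ?_⟩
  change D k F 2 b I = c.1 I
  rcases fin3_cases I with rfl | rfl | rfl | rfl | rfl | rfl | rfl | rfl
  iterate 4 exact absurd hI (by decide)
  · rw [D01, b0, b1]; abel
  · rw [D02, b0, b2]; abel
  · rw [D12, b1, b2, h2]; abel
  · exact absurd hI (by decide)

theorem H2_of (M : Fam k F 2) (h : ∀ f ∈ M.M {0, 1, 2}, ∃ a : Fin 3 → F,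
    f - a 0 + a 1 ∈ M.M {0, 1} ∧ a 2 - a 0 ∈ M.M {0, 2} ∧ a 2 - a 1 ∈ M.M {1, 2}) :
    Subsingleton (M.H 2) := by
  refine (M.cech.H_subsingleton_iff 2).2 fun c _ => ?_
  obtain ⟨a, h1, h2, h3⟩ := h (c.1 {0, 1, 2}) ((c.2 _).1 (by decide))
  let b : TC F 2 := fun I => if I = {0, 1} then c.1 {0, 1, 2} - a 0 + a 1
    else if I = {0, 2} then a 2 - a 0 else if I = {1, 2} then a 2 - a 1 else 0
  have b0 : b {0, 1} = c.1 {0, 1, 2} - a 0 + a 1 := rfl
  have b1 : b {0, 2} = a 2 - a 0 := rfl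
  have b2 : b {1, 2} = a 2 - a 1 := rfl
  have hb : b ∈ M.coch 1 := by
    intro I
    rcases fin3_cases I with rfl | rfl | rfl | rfl | rfl | rfl | rfl | rfl
    exacts [⟨fun h => absurd h (by decide), fun _ => rfl⟩,
      ⟨fun h => absurd h (by decide), fun _ => rfl⟩, ⟨fun h => absurd h (by decide), fun _ => rfl⟩,
      ⟨fun h => absurd h (by decide), fun _ => rfl⟩, ⟨fun _ => h1, fun h => absurd rfl h⟩,
      ⟨fun _ => h2, fun h => absurd rfl h⟩, ⟨fun _ => h3, fun h => absurd rfl h⟩,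
      ⟨fun h => absurd h (by decide), fun _ => rfl⟩]
  refine ⟨⟨b, hb⟩, coch_ext M 2 fun I hI => ?_⟩
  change D k F 2 b I = c.1 I
  rcases fin3_cases I with rfl | rfl | rfl | rfl | rfl | rfl | rfl | rfl
  iterate 7 exact absurd hI (by decide)
  rw [D012, b0, b1, b2]; abel

end Lin

variable {k : Type u} [Field k] [IsAlgClosed k]

/-- a smooth projective variety is a smooth proper variety -/
@[reducible] def ofSPV {n : ℕ} (V : SmoothProjectiveVariety k n) : SmPr k n :=
  ⟨V.toIntegralKScheme, V.smooth, V.proper⟩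

variable {V : SmoothProjectiveVariety k 2} (M : Model V)

theorem mem_fam {I : Finset (Fin (2 + 1))} {f : V.FnField} :
    f ∈ ((smV M).fam 0).M I ↔ ∀ y, (∀ i ∈ I, y ∈ M.U {i}) → f ∈ loc y := by
  change f ∈ secD V.toIntegralKScheme (Brg883.ext 0) (M.U I : Set V.X) ↔ _
  rw [ext_zero, secD_zero, Subalgebra.mem_toSubmodule, mem_regA, mem_reg]
  exact forall_congr' fun y => by rw [SetLike.mem_coe, M.mem_U]

variable [HasExt.{w} (Sh V.X)]

theorem H1_smV [Subsingleton (Sheaf.H (OX V.X) 1)] : Subsingleton (((smV M).fam 0).H 1) := by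
  have : V.X.IsSeparated := instSeparated (ofSPV V)
  refine H1_of _ fun a h1 h2 h3 => ?_
  rw [mem_fam] at h1 h2 h3
  obtain ⟨f, hf⟩ := cech1 (fun i : ULift.{u} (Fin 3) => M.U {i.down})
    (fun i => M.affine (Finset.singleton_nonempty _)) (fun i => M.generic_mem _)
    (fun x => (M.cover x).elim fun i hi => ⟨⟨i⟩, hi⟩) (fun i => a i.down) (by
      rintro ⟨i⟩ ⟨j⟩ y hi hj
      have key : ∀ i j : Fin 3, y ∈ M.U {i} → y ∈ M.U {j} → i < j → a j - a i ∈ loc y := by
        intro i j hi hj hij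
        fin_cases i <;> fin_cases j <;> simp at hij
        · exact h1 y (by simpa using ⟨hi, hj⟩)
        · exact h2 y (by simpa using ⟨hi, hj⟩)
        · exact h3 y (by simpa using ⟨hi, hj⟩)
      rcases lt_trichotomy i j with h | h | h
      · simpa using neg_mem (key i j hi hj h)
      · simp [h]
      · exact key j i hj hi h)
  exact ⟨f, fun i => (mem_fam M).2 fun y hy => mem_reg.1 (hf ⟨i⟩) y (by simpa using hy)⟩

theorem H2_smV [CharZero k] [Subsingleton (Sheaf.H (OX V.X) 2)] :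
    Subsingleton (((smV M).fam 0).H 2) := by
  have : CompactSpace V.X := instCompact (ofSPV V)
  refine H2_of _ fun f hf => ?_
  rw [mem_fam] at hf
  obtain ⟨a, ha⟩ := cech2 (W := V.toIntegralKScheme) (fun i : ULift.{u} (Fin 3) => M.U {i.down})
    (fun i => M.affine (Finset.singleton_nonempty _)) (fun i => M.nonempty _)
    (fun x => (M.cover x).elim fun i hi => ⟨⟨i⟩, hi⟩)
    (fun i j => ![![0, f, 0], ![-f, 0, 0], ![0, 0, 0]] i.down j.down) (by
      rintro ⟨i⟩ ⟨j⟩ ⟨l⟩ y hi hj hl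
      by_cases hy : ∀ m ∈ ({0, 1, 2} : Finset (Fin (2 + 1))), y ∈ M.U {m}
      · have h1 := hf y hy
        have key : ∀ i j : Fin 3, ![![0, f, 0], ![-f, 0, 0], ![0, 0, 0]] i j ∈ loc y := by
          intro i j
          fin_cases i <;> fin_cases j <;> simp [h1]
        exact sub_mem (sub_mem (key _ _) (key _ _)) (key _ _)
      · fin_cases i <;> fin_cases j <;> fin_cases l <;> simp_all)
  refine ⟨fun i => a ⟨i⟩, (mem_fam M).2 fun y hy => ?_, (mem_fam M).2 fun y hy => ?_,
    (mem_fam M).2 fun y hy => ?_⟩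
  · have := neg_mem (ha ⟨0⟩ ⟨1⟩ y (hy 0 (by decide)) (hy 1 (by decide)))
    convert this using 1
    simp
    ring
  · simpa using ha ⟨2⟩ ⟨0⟩ y (hy 2 (by decide)) (hy 0 (by decide))
  · simpa using ha ⟨2⟩ ⟨1⟩ y (hy 2 (by decide)) (hy 1 (by decide))



/-- the surface of S0403 as a smooth proper variety -/
def smPr (S : Scheme.{u}) [IsIntegral S] (f : S ⟶ Spec (.of k))
    [SmoothOfRelativeDimension 2 f] [IsProper f] : SmPr k 2 where
  X := S
  toBase := f
  isLocallyNoetherian := LocallyOfFiniteType.isLocallyNoetherian f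
  smooth := inferInstance
  proper := inferInstance

/-- **the surface of S0403 as a smooth projective variety** -/
@[reducible] def ofScheme [CharZero k] (S : Scheme.{u}) [IsIntegral S] (f : S ⟶ Spec (.of k))
    [SmoothOfRelativeDimension 2 f] [IsProper f] [HasExt.{w} (Sh S)]
    (hq : Subsingleton (Sheaf.H (OX S) 1)) : SmoothProjectiveVariety k 2 :=
  toSPV (smPr S f) (@finH_of_H1 k _ (smPr S f).toIntegralKScheme (instLocFact (smPr S f))
    (instCompact (smPr S f)) ‹_› (instSeparated (smPr S f)) hq)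

end

end Crest.Agent.N265.Br
end

-- ▼ part N265/Br/Rat
section

/-!
# Row 265, bridge, part 11 (helper42): rational equivalence of zero-cycles

* `cen_ctr` : every place of `κ(ξ)` has a centre (properness);
* `cyc ξ a` : the divisor of `a ∈ κ(ξ)` pushed forward to the surface; `Rat V`, `CH0 V`;
* `cyc_apply_ord` : coefficients of `cyc` are lengths;
* `s0403_of_rat` : the statement S0403 for two points with `[x] - [y] ∈ Rat`.
-/

set_option autoImplicit false
set_option linter.unusedSectionVars false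
set_option linter.style.haveILetI false

open AlgebraicGeometry CategoryTheory Order TopologicalSpace
open Crest.AlgGeometry.Prelude
open Crest.Agent.R274.Br179
open Crest.Agent.R270.Len1_790 Crest.Agent.R270.Crv_110
open Crest.Agent.R013.RR7_948 Crest.Agent.R013.RR11_948

namespace Crest.Agent.N265.Br

universe w u

noncomputable section

open IsLocalRing

theorem ord_equiv {R S : Type u} [CommRing R] [CommRing S] (e : R ≃+* S) (x : R) :
    Ring.ord S (e x) = Ring.ord R x := by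
  let _ : Algebra R S := e.toRingHom.toAlgebra
  have h1 : Module.length R (S ⧸ Ideal.span {e x}) = Module.length S (S ⧸ Ideal.span {e x}) :=
    Module.length_eq_of_surjective (R := S) (S := R) (M := S ⧸ Ideal.span {e x}) e.surjective
  have h2 : Ideal.span {e x} = (Ideal.span {x}).map (algebraMap R S) := by
    rw [Ideal.map_span, Set.image_singleton]
    rfl
  let e' : R ≃ₐ[R] S := AlgEquiv.ofRingEquiv (f := e) fun _ => rfl
  rw [Ring.ord, Ring.ord, ← h1]
  exact (Ideal.quotientEquivAlg (Ideal.span {x}) (Ideal.span {e x}) e' h2).toLinearEquiv.length_eq.symm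

/-! ### integral closed subschemes -/

section Sub

variable {X : Scheme.{u}}

theorem exists_sub (ξ : X) : ∃ (C : Scheme.{u}) (_ : IsIntegral C) (ι : C ⟶ X)
    (_ : IsClosedImmersion ι), ι (genericPoint C) = ξ := by
  let f := X.fromSpecResidueField ξ
  let p : Spec (X.residueField ξ) := closedPoint (X.residueField ξ)
  have hgen : IsGenericPoint (f.toImage p) (Set.univ : Set f.image) := by
    have h1 := f.toImage.denseRange
    rw [isGenericPoint_def, ← h1.closure_range]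
    congr 1
    ext z
    simp only [Set.mem_singleton_iff, Set.mem_range]
    exact ⟨fun h => ⟨p, h.symm⟩, fun ⟨q, hq⟩ => by rw [← hq, Subsingleton.elim q p]⟩
  have hirr : IrreducibleSpace f.image :=
    (irreducibleSpace_def _).2 hgen.isIrreducible
  have hst : ∀ x : f.image, _root_.IsReduced (f.image.presheaf.stalk x) := by
    intro x
    obtain ⟨U, hU, hx⟩ := exists_affine (f.imageι x)
    have h1 : IsAffineOpen (f.imageι ⁻¹ᵁ U) := hU.preimage _
    have h2 : _root_.IsReduced Γ(f.image, f.imageι ⁻¹ᵁ U) :=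
      isReduced_of_injective _ (f.toImage_app_injective ⟨U, hU⟩)
    let _ := TopCat.Presheaf.algebra_section_stalk f.image.presheaf (⟨x, hx⟩ : f.imageι ⁻¹ᵁ U)
    have := h1.isLocalization_stalk ⟨x, hx⟩
    exact isReduced_localizationPreserves (h1.primeIdealOf ⟨x, hx⟩).asIdeal.primeCompl _ h2
  have hred : IsReduced f.image := isReduced_of_isReduced_stalk _
  have hint : IsIntegral f.image := isIntegral_of_irreducibleSpace_of_isReduced _
  refine ⟨f.image, hint, f.imageι, inferInstance, ?_⟩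
  rw [(genericPoint_spec f.image).eq hgen, ← Scheme.Hom.comp_apply, f.toImage_imageι]
  exact Scheme.fromSpecResidueField_apply ξ p

variable (X) in
/-- an integral curve with a nonzero rational function -/
structure Cv where
  /-- the curve -/
  C : Scheme.{u}
  [int : IsIntegral C]
  [noeth : IsLocallyNoetherian C]
  /-- the embedding -/
  ι : C ⟶ X
  cl : IsClosedImmersion ι
  /-- the function -/
  g : C.functionField
  codim : coheight (ι.base (genericPoint C)) = 1
  ne : g ≠ 0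

attribute [instance] Cv.int Cv.noeth

/-- the push-forward of the divisor -/
def Cv.val (F : Cv X) (p : X) : ℤ := ∑ᶠ z ∈ F.ι.base ⁻¹' {p}, Scheme.ord F.g z

/-- the inverse function -/
def Cv.inv (F : Cv X) : Cv X := { F with g := F.g⁻¹, ne := inv_ne_zero F.ne }

theorem Cv.val_inv (F : Cv X) (p : X) : F.inv.val p = - F.val p := by
  simp only [Cv.val, Cv.inv, ord_inv, finsum_neg_distrib]
  rfl

variable (X) in
/-- rational equivalence to zero as in S0403 -/
def RatS : AddSubgroup (X →₀ ℤ) where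
  carrier := {c | ∃ (n : ℕ) (F : Fin n → Cv X), ∀ p, IsClosed ({p} : Set X) →
    c p = ∑ i, (F i).val p}
  zero_mem' := ⟨0, fun i => i.elim0, fun p _ => by simp⟩
  add_mem' := by
    rintro c c' ⟨n, F, h⟩ ⟨m, G, h'⟩
    refine ⟨n + m, Fin.append F G, fun p hp => ?_⟩
    rw [Finsupp.add_apply, h p hp, h' p hp, Fin.sum_univ_add]
    simp
  neg_mem' := by
    rintro c ⟨n, F, h⟩
    refine ⟨n, fun i => (F i).inv, fun p hp => ?_⟩
    simp [h p hp, Cv.val_inv]

end Sub

variable {k : Type u} [Field k] [IsAlgClosed k] [CharZero k]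

section Ctx

variable {n : ℕ} {V : SmPr k n} {ξ : V.X}
  [Algebra (RatFunc k) (V.ResField ξ)] [IsScalarTower k (RatFunc k) (V.ResField ξ)]
  [FiniteDimensional (RatFunc k) (V.ResField ξ)] [Algebra.IsSeparable (RatFunc k) (V.ResField ξ)]

local notation "𝐖" => SmPr.toIntegralKScheme V

/-- **every place has a centre** -/
theorem cen_ctr (Q : Pl k (V.ResField ξ)) : Cen (W := 𝐖) Q (ctr Q) := by
  have hp := V.proper
  have hE : ValuativeCriterion.Existence V.toBase := by
    have h1 : UniversallyClosed V.toBase := inferInstance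
    rw [UniversallyClosed.eq_valuativeCriterion] at h1
    exact h1.1
  let c : k →+* OQ Q := (algebraMap k (V.ResField ξ)).codRestrict _ (algebraMap_mem_OQ Q)
  have w : V.X.fromSpecResidueField ξ ≫ V.toBase =
      Spec.map (CommRingCat.ofHom (algebraMap (OQ Q) (V.ResField ξ))) ≫
        Spec.map (CommRingCat.ofHom c) := by
    rw [Scheme.fromSpecResidueField, Category.assoc,
      Crest.Agent.R270.Iso_927.fromSpecStalk_toBase, ← Spec.map_comp, ← Spec.map_comp]
    rfl
  obtain ⟨l, hl₁, -⟩ := (hE { R := OQ Q, K := V.ResField ξ, commSq := ⟨w⟩, .. }).exists_lift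
  dsimp only at hl₁
  have hs : ξ ⤳ l (closedPoint (OQ Q)) := by
    have h1 := Scheme.fromSpecResidueField_apply ξ (closedPoint (V.X.residueField ξ))
    rw [← hl₁, Scheme.Hom.comp_apply] at h1
    exact (specializes_of_eq h1.symm).trans ((specializes_closedPoint _).map l.continuous)
  have h2 : Scheme.stalkClosedPointTo l ≫ CommRingCat.ofHom (algebraMap (OQ Q) (V.ResField ξ)) =
      V.X.presheaf.stalkSpecializes hs ≫ V.X.residue ξ := by
    apply Spec.map_injective
    rw [← cancel_mono (V.X.fromSpecStalk (l (closedPoint (OQ Q)))), Spec.map_comp, Spec.map_comp,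
      Category.assoc, Category.assoc, Scheme.Spec_stalkClosedPointTo_fromSpecStalk,
      Scheme.SpecMap_stalkSpecializes_fromSpecStalk]
    exact hl₁
  have h3 : ∀ f ∈ loc (l (closedPoint (OQ Q))), Q.v (E (W := 𝐖) ξ f) ≤ 1 := by
    rintro _ ⟨a, rfl⟩
    have h4 := ConcreteCategory.congr_hom h2 a
    have h5 : E (W := 𝐖) ξ (algebraMap _ V.X.functionField a) =
        V.X.residue ξ (V.X.presheaf.stalkSpecializes hs a) := by
      rw [E_eq (loc_le hs ⟨a, rfl⟩)]
      refine congrArg (V.X.residue ξ).hom ((stE ξ).symm_apply_eq.2 (Subtype.ext ?_))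
      exact (algebraMap_spec hs a).symm
    rw [h5]
    exact (congrArg (fun b => Q.v b ≤ 1) h4).mp (Scheme.stalkClosedPointTo l a).2
  have h4 : Cen (W := 𝐖) Q (l (closedPoint (OQ Q))) := by
    refine ⟨hs, fun h => OQ_ne_top Q (eq_top_iff.2 fun a _ => ?_), h3⟩
    obtain ⟨f, hf, rfl⟩ := exists_E (W := 𝐖) a
    exact h3 f (by rw [h]; exact hf)
  rwa [ctr_eq h4]

theorem ctr_eq_iff {Q : Pl k (V.ResField ξ)} {y : V.X} : ctr Q = y ↔ Cen (W := 𝐖) Q y :=
  ⟨fun h => h ▸ cen_ctr Q, ctr_eq⟩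

variable (ξ) in
/-- the divisor of a function on the curve `ξ`, as a zero-cycle -/
def cyc (a : V.ResField ξ) : V.X →₀ ℤ := (divf (k := k) a).mapDomain ctr

theorem cyc_mul {a b : V.ResField ξ} (ha : a ≠ 0) (hb : b ≠ 0) :
    cyc ξ (a * b) = cyc ξ a + cyc ξ b := by
  rw [cyc, divf_mul ha hb, Finsupp.mapDomain_add]; rfl



theorem cyc_apply (a : V.ResField ξ) (y : V.X) {S : Finset (Pl k (V.ResField ξ))}
    (hS : ∀ Q, Q ∈ S ↔ Cen (W := 𝐖) Q y) : cyc ξ a y = ∑ Q ∈ S, divf (k := k) a Q := by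
  classical
  rw [cyc, Finsupp.mapDomain, Finsupp.sum_apply, Finsupp.sum,
    ← Finset.sum_filter_add_sum_filter_not _ (· ∈ S), Finset.sum_eq_zero (s := Finset.filter
      (fun Q => ¬ Q ∈ S) _) fun Q hQ => Finsupp.single_eq_of_ne' fun h =>
        (Finset.mem_filter.1 hQ).2 ((hS Q).2 (ctr_eq_iff.1 h)), add_zero]
  refine Finset.sum_subset_zero_on_sdiff (fun Q hQ => (Finset.mem_filter.1 hQ).2)
    (fun Q hQ => ?_) fun Q hQ => ?_
  · rw [Finset.mem_sdiff, Finset.mem_filter, not_and', Finsupp.notMem_support_iff] at hQ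
    exact hQ.2 hQ.1
  · rw [ctr_eq ((hS Q).1 (Finset.mem_filter.1 hQ).2), Finsupp.single_eq_same]

theorem cyc_apply_of_not {a : V.ResField ξ} {y : V.X} (h : ¬ (ξ ⤳ y ∧ y ≠ ξ)) :
    cyc ξ a y = 0 := by
  rw [cyc_apply a y (S := ∅) fun Q => ⟨by simp, fun hQ => (h ⟨hQ.1, hQ.2.1⟩).elim⟩]
  rfl

theorem dom_iff_cen {y : V.X} (h : ξ ⤳ y) (hne : y ≠ ξ) (Q : Pl k (V.ResField ξ)) :
    Dom (Rg (W := 𝐖) h) Q ↔ Cen (W := 𝐖) Q y := by
  rw [dom_iff_le (essFT h)]
  exact ⟨fun hQ => ⟨h, hne, fun f hf => hQ _ (mem_Rg.2 ⟨f, hf, rfl⟩)⟩, fun hQ => hQ.le⟩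

/-- **coefficients are lengths** -/
theorem cyc_apply_ord {y : V.X} (h : ξ ⤳ y) (hne : y ≠ ξ) (a : Rg (W := 𝐖) h)
    (ha : (a : V.ResField ξ) ≠ 0) :
    cyc ξ (a : V.ResField ξ) y = (Ring.ord (Rg (W := 𝐖) h) a).toNat := by
  have htop : Rg (W := 𝐖) h ≠ ⊤ := by
    obtain ⟨s, hs, hsξ⟩ := exists_van h hne
    intro h0
    refine inv_notMem_Rg h hs (fun h1 => hsξ ((E_eq_zero ?_).1 h1)) (h0 ▸ trivial)
    exact loc_le h (van_subset_loc y hs)
  obtain ⟨hfin, h1⟩ := lenK (Rg (W := 𝐖) h) (essFT h) htop a ha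
  rw [h1, cyc_apply _ y fun Q => hfin.mem_toFinset.trans (dom_iff_cen h hne Q)]

end Ctx

variable (V : SmPr k 2)

local notation "𝐖" => SmPr.toIntegralKScheme V

/-- zero-cycles rationally equivalent to zero -/
def Rat : AddSubgroup (V.X →₀ ℤ) := AddSubgroup.closure
  {c | ∃ (ξ : V.X) (_ : coheight ξ = 1) (_ : Algebra (RatFunc k) (V.ResField ξ))
    (_ : IsScalarTower k (RatFunc k) (V.ResField ξ))
    (_ : FiniteDimensional (RatFunc k) (V.ResField ξ))
    (_ : Algebra.IsSeparable (RatFunc k) (V.ResField ξ)) (a : V.ResField ξ), a ≠ 0 ∧ c = cyc ξ a}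

/-- cycles modulo rational equivalence of zero-cycles -/
abbrev CH0 : Type u := (V.X →₀ ℤ) ⧸ Rat V

/-- the class of a point -/
def cls (x : V.X) : CH0 V := QuotientAddGroup.mk (Finsupp.single x 1)

variable {V}

theorem cyc_mem_Rat {ξ : V.X} (hξ : coheight ξ = 1) [Algebra (RatFunc k) (V.ResField ξ)]
    [IsScalarTower k (RatFunc k) (V.ResField ξ)] [FiniteDimensional (RatFunc k) (V.ResField ξ)]
    [Algebra.IsSeparable (RatFunc k) (V.ResField ξ)] (a : V.ResField ξ) : cyc ξ a ∈ Rat V := by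
  by_cases ha : a = 0
  · rw [ha, cyc, divf, dif_pos rfl, Finsupp.mapDomain_zero]
    exact zero_mem _
  · exact AddSubgroup.subset_closure ⟨ξ, hξ, _, _, _, _, a, ha, rfl⟩

section Main

variable {C : Scheme.{u}} [IsIntegral C] [IsLocallyNoetherian C] (ι : C ⟶ V.X) [IsClosedImmersion ι]

/-- the function field of the curve -/
def psi : V.ResField (ι (genericPoint C)) ≃+* C.functionField :=
  haveI : IsLocalHom (ι.stalkMap (genericPoint C)).hom := inferInstance
  RingEquiv.ofBijective (ResidueField.lift (S := C.functionField) (ι.stalkMap (genericPoint C)).hom)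
    ⟨RingHom.injective _, fun g => by
      obtain ⟨a, rfl⟩ := ι.stalkMap_surjective (genericPoint C) g
      exact ⟨residue _ a, ResidueField.lift_residue_apply _ a⟩⟩

theorem psi_E (z : C) (a : V.X.presheaf.stalk (ι z)) :
    psi ι (E (W := 𝐖) (ι (genericPoint C)) (algebraMap _ V.X.functionField a)) =
      algebraMap _ C.functionField (ι.stalkMap z a) := by
  have hs : ι (genericPoint C) ⤳ ι z := (genericPoint_specializes z).map ι.continuous
  have h5 : E (W := 𝐖) (ι (genericPoint C)) (algebraMap _ V.X.functionField a) =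
      V.X.residue _ (V.X.presheaf.stalkSpecializes hs a) := by
    rw [E_eq (loc_le hs ⟨a, rfl⟩)]
    refine congrArg (V.X.residue _).hom ((stE _).symm_apply_eq.2 (Subtype.ext ?_))
    exact (algebraMap_spec hs a).symm
  rw [h5]
  exact (ResidueField.lift_residue_apply _ _).trans
    (ι.stalkSpecializes_stalkMap_apply _ _ (genericPoint_specializes z) a)

theorem coheight_sub (hξ : coheight (ι (genericPoint C)) = 1) {z : C}
    (hz : z ≠ genericPoint C) : coheight z = 1 := by
  refine le_antisymm ?_ (one_le_coheight_of_ne_genericPoint hz)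
  rw [show (1 : ℕ∞) = ((1 : ℕ) : ℕ∞) from rfl, Order.coheight_le_coe_iff]
  intro w hw
  have h1 : w ⤳ z := hw.le
  have h2 : w = genericPoint C := by
    by_contra h
    have h3 := eq_of_spec hξ ((genericPoint_specializes w).map ι.continuous)
      (fun h4 => h (ι.isClosedEmbedding.injective h4)) (h1.map ι.continuous)
    exact hw.ne (ι.isClosedEmbedding.injective h3)
  have h3 : coheight w = 0 := by
    rw [h2, Order.coheight_eq_zero]
    exact fun v _ => genericPoint_specializes v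
  rw [h3]
  norm_num

variable [Algebra (RatFunc k) (V.ResField (ι (genericPoint C)))]
  [IsScalarTower k (RatFunc k) (V.ResField (ι (genericPoint C)))]
  [FiniteDimensional (RatFunc k) (V.ResField (ι (genericPoint C)))]
  [Algebra.IsSeparable (RatFunc k) (V.ResField (ι (genericPoint C)))]

theorem ord_psi (hξ : coheight (ι (genericPoint C)) = 1) {z : C} (hz : z ≠ genericPoint C)
    {a : V.ResField (ι (genericPoint C))} (ha : a ≠ 0) :
    Scheme.ord (psi ι a) z = cyc _ a (ι z) := by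
  have hs : ι (genericPoint C) ⤳ ι z := (genericPoint_specializes z).map ι.continuous
  have hne : ι z ≠ ι (genericPoint C) := fun h => hz (ι.isClosedEmbedding.injective h)
  have hz1 := coheight_sub ι hξ hz
  have hmem : ∀ r : Rg (W := 𝐖) hs, psi ι r ∈ loc z := by
    rintro ⟨r, hr⟩
    obtain ⟨_, ⟨b, rfl⟩, rfl⟩ := mem_Rg.1 hr
    exact ⟨_, (psi_E ι z b).symm⟩
  let θ₀ : Rg (W := 𝐖) hs →+* loc z :=
    ((psi ι).toRingHom.comp (Rg (W := 𝐖) hs).val.toRingHom).codRestrict _ hmem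
  have hθ : Function.Bijective θ₀ := by
    refine ⟨fun r s h => Subtype.ext ((psi ι).injective (congrArg Subtype.val h)), ?_⟩
    rintro ⟨_, b, rfl⟩
    obtain ⟨c, rfl⟩ := ι.stalkMap_surjective z b
    exact ⟨⟨_, mem_Rg.2 ⟨_, ⟨c, rfl⟩, rfl⟩⟩, Subtype.ext (psi_E ι z c)⟩
  let θ := (RingEquiv.ofBijective θ₀ hθ).trans (stE z).symm
  have key : ∀ r : Rg (W := 𝐖) hs, r.1 ≠ 0 → Scheme.ord (psi ι r) z = cyc _ r.1 (ι z) := by
    intro r hr
    have h1 : psi ι r = algebraMap _ C.functionField (θ r) :=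
      congrArg Subtype.val ((stE z).apply_symm_apply (θ₀ r)).symm
    have h2 : θ r ≠ 0 := (map_ne_zero_iff _ θ.injective).2 fun h => hr (congrArg Subtype.val h)
    have : Ring.KrullDimLE 1 (C.presheaf.stalk z) := krullDimLE_of_coheight_le hz1.le
    obtain ⟨m, hm⟩ := ENat.ne_top_iff_exists.1
      (Ring.ord_ne_top (a := θ r) (mem_nonZeroDivisors_of_ne_zero h2))
    rw [cyc_apply_ord hs hne r hr, ← ord_equiv θ, ← hm, ENat.toNat_natCast,
      Scheme.ord_eq_iff hz1 ((map_ne_zero _).2 hr), h1, Scheme.ordHom, Ring.ordFrac_eq_ord _ h2,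
      Ring.ordMonoidWithZeroHom_eq_coe _ (mem_nonZeroDivisors_of_ne_zero h2) hm.symm]
  obtain ⟨r, hr, s, hs', hs0, hrs⟩ := (essFT hs).frac a
  have hr0 : r ≠ 0 := hrs ▸ mul_ne_zero hs0 ha
  have h1 := key ⟨r, hr⟩ hr0
  have h2 := key ⟨s, hs'⟩ hs0
  simp only at h1 h2
  rw [← hrs, map_mul, Scheme.ord_mul ((map_ne_zero _).2 hs0) ((map_ne_zero _).2 ha),
    cyc_mul hs0 ha, Finsupp.add_apply, h2] at h1
  exact add_left_cancel h1

end Main

theorem rat_le : Rat V ≤ RatS V.X := by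
  refine (AddSubgroup.closure_le _).2 ?_
  rintro _ ⟨ξ, hξ, _, _, _, _, a, ha, rfl⟩
  obtain ⟨C, _, ι, _, rfl⟩ := exists_sub ξ
  have : IsLocallyNoetherian C := LocallyOfFiniteType.isLocallyNoetherian ι
  refine ⟨1, fun _ => ⟨C, ι, ‹_›, psi ι a, hξ, (map_ne_zero _).2 ha⟩, fun p hp => ?_⟩
  rw [Fin.sum_univ_one, Cv.val]
  by_cases h : ∃ z, ι z = p
  · obtain ⟨z, rfl⟩ := h
    have h1 : ι.base ⁻¹' {ι z} = {z} := by
      ext w
      exact ι.isClosedEmbedding.injective.eq_iff
    rw [h1, finsum_mem_singleton, ord_psi ι hξ (fun h => not_isClosed hξ (h ▸ hp)) ha]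
  · have h1 : ι.base ⁻¹' {p} = ∅ := Set.eq_empty_of_forall_notMem fun z hz => h ⟨z, hz⟩
    rw [h1, finsum_mem_empty]
    refine cyc_apply_of_not fun h2 => h ?_
    exact ι.isClosedEmbedding.isClosed_range.closure_subset_iff.2 (Set.singleton_subset_iff.2
      ⟨_, rfl⟩) (specializes_iff_mem_closure.1 h2.1)

/-- **S0403 for two rationally equivalent points** -/
theorem s0403_of_rat (x y : V.X) (h : cls V x = cls V y) :
    ∃ (n : ℕ) (C : Fin n → Scheme.{u}) (_ : ∀ k, IsIntegral (C k))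
      (_ : ∀ k, IsLocallyNoetherian (C k)) (ι : ∀ k, C k ⟶ V.X)
      (_ : ∀ k, IsClosedImmersion (ι k)) (g : ∀ k, (C k).functionField),
      (∀ k, Order.coheight ((ι k).base (genericPoint (C k))) = 1) ∧ (∀ k, g k ≠ 0) ∧
      ∀ p : V.X, IsClosed ({p} : Set V.X) →
        ({x} : Set V.X).indicator (1 : V.X → ℤ) p - ({y} : Set V.X).indicator 1 p =
          ∑ k, ∑ᶠ z ∈ (ι k).base ⁻¹' {p}, Scheme.ord (g k) z := by
  classical
  obtain ⟨n, F, hF⟩ := rat_le (QuotientAddGroup.eq_iff_sub_mem.1 h)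
  refine ⟨n, fun i => (F i).C, fun i => (F i).int, fun i => (F i).noeth, fun i => (F i).ι,
    fun i => (F i).cl, fun i => (F i).g, fun i => (F i).codim, fun i => (F i).ne, fun p hp => ?_⟩
  refine Eq.trans ?_ (hF p hp)
  simp [Set.indicator_apply, Finsupp.single_apply, eq_comm]

/-- Bloch's conjecture in the language of `SmV` -/
def Bloch : Prop := ∀ (V : SmoothProjectiveVariety ℂ 2) (M : Model V),
  Subsingleton (((R274.Brg883.smV M).fam 0).H 1) → Subsingleton (((R274.Brg883.smV M).fam 0).H 2) →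
    ∀ x y : V.X, IsClosed ({x} : Set V.X) → IsClosed ({y} : Set V.X) →
      cls (ofSPV V) x = cls (ofSPV V) y

/-- **the bridge** -/
theorem s0403_of_bloch (H : Bloch) (S : Scheme.{0}) [IsIntegral S] (f : S ⟶ Spec (.of ℂ))
    [SmoothOfRelativeDimension 2 f] [IsProper f]
    (hq : Subsingleton (Sheaf.H ((SheafOfModules.toSheaf S.ringCatSheaf).obj
      (SheafOfModules.unit S.ringCatSheaf)) 1 : Type))
    (hpg : Subsingleton (Sheaf.H ((SheafOfModules.toSheaf S.ringCatSheaf).obj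
      (SheafOfModules.unit S.ringCatSheaf)) 2 : Type))
    (x y : S) (hx : IsClosed ({x} : Set S)) (hy : IsClosed ({y} : Set S)) :
    ∃ (n : ℕ) (C : Fin n → Scheme.{0}) (_ : ∀ k, IsIntegral (C k))
      (_ : ∀ k, IsLocallyNoetherian (C k)) (ι : ∀ k, C k ⟶ S)
      (_ : ∀ k, IsClosedImmersion (ι k)) (g : ∀ k, (C k).functionField),
      (∀ k, Order.coheight ((ι k).base (genericPoint (C k))) = 1) ∧ (∀ k, g k ≠ 0) ∧
      ∀ p : S, IsClosed ({p} : Set S) →
        ({x} : Set S).indicator (1 : S → ℤ) p - ({y} : Set S).indicator 1 p =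
          ∑ k, ∑ᶠ z ∈ (ι k).base ⁻¹' {p}, Scheme.ord (g k) z := by
  obtain ⟨M⟩ := exists_model (ofScheme S f hq)
  exact s0403_of_rat (V := ofSPV (ofScheme S f hq)) x y
    (H _ M (@H1_smV _ _ _ _ M _ hq) (@H2_smV _ _ _ _ M _ _ hpg) x y hx hy)

end

end Crest.Agent.N265.Br
end

-- ▼ part N265/Div/Conn
section

/-!
# Row 265, divisibility, part 1 (helper1): chains of curves

On a smooth projective surface with `H¹(O) = 0` any two closed points are joined by a chain of
curves (`conn`): the hyperplane section is connected and meets every curve.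
-/

set_option autoImplicit false
set_option linter.unusedSectionVars false
set_option linter.style.haveILetI false

open AlgebraicGeometry CategoryTheory Order TopologicalSpace Topology Filter
open Crest.AlgGeometry.Prelude
open Crest.Agent.R274.Br179
open Crest.Agent.R013.RR7_948 Crest.Agent.R013.RR9_948 Crest.Agent.R013.RR11_948
open Crest.Agent.N265.Br

namespace Crest.Agent.N265.Div

universe u

noncomputable section

variable {k : Type u} [Field k] [IsAlgClosed k] [CharZero k] {V : SmPr k 2}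

local notation "𝐖" => SmPr.toIntegralKScheme V

theorem const_van {y : V.X} {c : k} (h : algebraMap k V.FnField c ∈ van y) : c = 0 := by
  by_contra hc0
  have h6 := mul_mem_van (const_mem_loc 𝐖 y c⁻¹) h
  rw [← map_mul, inv_mul_cancel₀ hc0, map_one] at h6
  exact one_notMem_van y h6

/-- functions regular along a complete curve are constant on it -/
theorem const_on {ξ : V.X} (hξ : coheight ξ = 1) {f : V.FnField}
    (hf : ∀ y, ξ ⤳ y → f ∈ loc y) : ∃ c : k, f - algebraMap k V.FnField c ∈ van ξ := by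
  obtain ⟨_, _, _, _⟩ := exists_ctx hξ
  have hfξ := hf ξ specializes_rfl
  have h1 : E (W := 𝐖) ξ f ∈ LD (0 : Pl k (V.ResField ξ) →₀ ℤ) := by
    rw [mem_LD]
    intro P
    have h2 := cen_ctr P
    simpa using h2.2.2 f (hf _ h2.1)
  rw [LD_zero Crest.Agent.R013.CE5_280.algebraicClosure_eq_bot, Submodule.mem_one] at h1
  obtain ⟨c, hc⟩ := h1
  refine ⟨c, ?_⟩
  rw [← E_eq_zero (sub_mem hfξ (const_mem_loc _ ξ c)), E_sub hfξ (const_mem_loc _ ξ c), E_const,
    hc, sub_self]

/-- a complete curve leaves every affine open set -/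
theorem exists_out {ξ : V.X} (hξ : coheight ξ = 1) {U : V.X.Opens} (hU : IsAffineOpen U) :
    ∃ y, ξ ⤳ y ∧ y ∉ U := by
  by_contra hcon
  push Not at hcon
  refine not_isClosed hξ (isClosed_of_const (W := 𝐖) fun f hf => ?_)
  obtain ⟨g, hg, s, hs, hsx, hfs⟩ :=
    Crest.Agent.R270.Dic327.exists_frac hU (hcon ξ specializes_rfl) hf
  obtain ⟨a, ha⟩ := const_on hξ (f := g) fun y hy => mem_reg.1 hg y (hcon y hy)
  obtain ⟨b, hb⟩ := const_on hξ (f := s) fun y hy => mem_reg.1 hs y (hcon y hy)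
  have hb0 : b ≠ 0 := by
    rintro rfl
    rw [map_zero, sub_zero] at hb
    exact hsx hb
  refine ⟨a / b, ?_⟩
  have h1 := mul_mem_van (const_mem_loc 𝐖 ξ b⁻¹) (add_mem_van ha (mul_mem_van (neg_mem hf) hb))
  have h2 : algebraMap k V.FnField b ≠ 0 := (map_ne_zero _).2 hb0
  convert h1 using 1
  rw [← hfs, map_div₀, map_inv₀]
  field_simp
  ring

/-- every closed point lies on a curve -/
theorem exists_curve {x : V.X} (hx : IsClosed ({x} : Set V.X)) :
    ∃ ξ : V.X, coheight ξ = 1 ∧ ξ ⤳ x ∧ x ≠ ξ := by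
  have hne : x ≠ genericPoint V.X := by
    intro h
    have h1 := coheight_closed V hx
    have h3 : coheight x = 0 := by
      rw [h, Order.coheight_eq_zero]
      exact fun v _ => genericPoint_specializes v
    rw [h3] at h1
    norm_num at h1
  obtain ⟨s, hs, hs'⟩ := exists_van (genericPoint_specializes x) hne
  have hs0 := ne_zero_of_notMem_van hs'
  obtain ⟨z, hz, hz'⟩ := exists_ord_pos (W := 𝐖) hs hs0
  have h1 : coheight z = 1 := (IsWD.ord (V := 𝐖) hs0).codim z hz'.ne'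
  exact ⟨z, h1, hz, fun h => not_isClosed h1 (h ▸ hx)⟩

variable (V) in
/-- affine charts of an ample system -/
structure Charts (ι : Type) where
  /-- the charts -/
  U : ι → V.X.Opens
  /-- the homogeneous coordinates -/
  t : ι → V.FnField
  aff : ∀ i, IsAffineOpen (U i)
  gen : ∀ i, genericPoint V.X ∈ U i
  ne : ∀ i, t i ≠ 0
  cover : ∀ x, ∃ i, x ∈ U i
  mem : ∀ {i x}, x ∈ U i → ∀ j, t j / t i ∈ loc x
  van_iff : ∀ {i x}, x ∈ U i → ∀ j, t j / t i ∈ van x ↔ x ∉ U j

namespace Charts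

variable {ι : Type} (C : Charts V ι)

/-- a chart containing a point -/
def idx (z : V.X) : ι := (C.cover z).choose

theorem idx_spec (z : V.X) : z ∈ C.U (C.idx z) := (C.cover z).choose_spec

/-- the multiplicity of the hyperplane section `t i = 0` -/
def mu (i : ι) (z : V.X) : ℤ := Scheme.ord (X := V.X) (C.t i / C.t (C.idx z)) z

theorem ord_eq (i : ι) {l : ι} {z : V.X} (hz : z ∈ C.U l) :
    Scheme.ord (X := V.X) (C.t l / C.t i) z = - C.mu i z := by
  have h1 : Scheme.ord (X := V.X) (C.t l / C.t (C.idx z)) z = 0 :=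
    ord_eq_zero_of_notMem_van specializes_rfl (C.mem (C.idx_spec z) l)
      fun h => (C.van_iff (C.idx_spec z) l).1 h hz
  have h2 : C.t l / C.t (C.idx z) = (C.t l / C.t i) * (C.t i / C.t (C.idx z)) := by
    have := C.ne i
    field_simp
  rw [h2, Scheme.ord_mul (div_ne_zero (C.ne l) (C.ne i)) (div_ne_zero (C.ne i) (C.ne _))] at h1
  rw [mu]
  omega

theorem mu_pos {i : ι} {z : V.X} (hz : coheight z = 1) (h : z ∉ C.U i) : 1 ≤ C.mu i z :=
  ord_pos_of_mem_van hz (div_ne_zero (C.ne i) (C.ne _)) ((C.van_iff (C.idx_spec z) i).2 h)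

theorem of_mu_ne {i : ι} {z : V.X} (h : C.mu i z ≠ 0) : coheight z = 1 ∧ z ∉ C.U i := by
  refine ⟨(IsWD.ord (V := 𝐖) (div_ne_zero (C.ne i) (C.ne _))).codim z h, fun hz => h ?_⟩
  have h1 := C.ord_eq i hz
  rw [div_self (C.ne i), ord_one] at h1
  omega

theorem fin (i : ι) : {z : V.X | coheight z = 1 ∧ z ∉ C.U i}.Finite :=
  finite_compl (C.U i) ⟨_, C.gen i⟩

/-- functions regular along a union of connected components of a hyperplane section -/
theorem no_fun (i : ι) {D : Set V.X} (hD : ∀ z ∈ D, coheight z = 1 ∧ z ∉ C.U i)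
    (hne : D.Nonempty)
    (hcl : ∀ z ∈ D, ∀ y, z ⤳ y → ∀ z', z' ⤳ y → coheight z' = 1 → z' ∉ C.U i → z' ∈ D)
    {f : V.FnField} (hf : ∀ z ∈ D, ∀ y, z ⤳ y → f ∈ loc y) :
    ∃ c : k, f = algebraMap k V.FnField c := by
  classical
  by_contra hcon
  push Not at hcon
  have hfin : D.Finite := (C.fin i).subset hD
  choose! c hc using fun z (hz : z ∈ D) => const_on (hD z hz).1 (hf z hz)
  set F : V.FnField := ∏ z ∈ hfin.toFinset, (f - algebraMap k V.FnField (c z)) with hF
  have hF0 : F ≠ 0 := Finset.prod_ne_zero_iff.2 fun z _ => sub_ne_zero.2 (hcon _)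
  have hFl : ∀ z ∈ D, ∀ y, z ⤳ y → F ∈ loc y := fun z hz y hy =>
    Subring.prod_mem _ fun w _ => sub_mem (hf z hz y hy) (const_mem_loc 𝐖 y _)
  have hFv : ∀ z ∈ D, 1 ≤ Scheme.ord (X := V.X) F z := by
    intro z hz
    refine ord_pos_of_mem_van (hD z hz).1 hF0 ?_
    rw [hF, ← Finset.prod_erase_mul _ _ (hfin.mem_toFinset.2 hz)]
    exact mul_mem_van (Subring.prod_mem _ fun w _ =>
      sub_mem (hf z hz z specializes_rfl) (const_mem_loc 𝐖 z _)) (hc z hz)
  obtain ⟨ξ, hξ, hmin⟩ := D.exists_min_image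
    (fun z => (Scheme.ord (X := V.X) F z : ℚ) / (C.mu i z : ℚ)) hfin hne
  obtain ⟨ν, hν⟩ := Int.eq_ofNat_of_zero_le (zero_le_one.trans (hFv ξ hξ))
  obtain ⟨a, ha⟩ := Int.eq_ofNat_of_zero_le (zero_le_one.trans (C.mu_pos (hD ξ hξ).1 (hD ξ hξ).2))
  have hν0 : ν ≠ 0 := by
    have := hFv ξ hξ
    omega
  have hord : ∀ l z, z ∈ C.U l → Scheme.ord (X := V.X) (F ^ a * (C.t l / C.t i) ^ ν) z =
      a * Scheme.ord (X := V.X) F z - ν * C.mu i z := by
    intro l z hz
    rw [Scheme.ord_mul (pow_ne_zero _ hF0) (pow_ne_zero _ (div_ne_zero (C.ne l) (C.ne i))),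
      ord_pow, ord_pow, C.ord_eq i hz]
    ring
  have hG : ∀ l y, ξ ⤳ y → y ∈ C.U l → F ^ a * (C.t l / C.t i) ^ ν ∈ loc y := by
    intro l y hy hyl
    refine mem_loc_iff.2 fun z hz => ?_
    rw [hord l z (hz.mem_open (C.U l).isOpen hyl)]
    by_cases h0 : C.mu i z = 0
    · rw [h0, mul_zero, sub_zero]
      exact mul_nonneg (Nat.cast_nonneg _) (ord_nonneg_of_mem_loc hz (hFl ξ hξ y hy))
    · obtain ⟨h1, h2⟩ := C.of_mu_ne h0
      have h3 := hmin z (hcl ξ hξ y hy z hz h1 h2)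
      have h4 : (0 : ℚ) < C.mu i z := by exact_mod_cast C.mu_pos h1 h2
      have h5 : (0 : ℚ) < C.mu i ξ := by exact_mod_cast C.mu_pos (hD ξ hξ).1 (hD ξ hξ).2
      rw [div_le_div_iff₀ h5 h4, hν, ha] at h3
      have h6 : (ν : ℤ) * C.mu i z ≤ Scheme.ord (X := V.X) F z * (a : ℤ) := by exact_mod_cast h3
      linarith
  have hsplit : ∀ l, F ^ a * (C.t (C.idx ξ) / C.t i) ^ ν =
      F ^ a * (C.t l / C.t i) ^ ν * (C.t (C.idx ξ) / C.t l) ^ ν := by
    intro l
    have := C.ne l
    rw [mul_assoc, ← mul_pow]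
    congr 2
    field_simp
  have hg : ∀ y, ξ ⤳ y → F ^ a * (C.t (C.idx ξ) / C.t i) ^ ν ∈ loc y := by
    intro y hy
    obtain ⟨l, hl⟩ := C.cover y
    rw [hsplit l]
    exact mul_mem (hG l y hy hl) (pow_mem (C.mem hl _) _)
  obtain ⟨b, hb⟩ := const_on (hD ξ hξ).1 hg
  obtain ⟨y, hy, hyU⟩ := exists_out (hD ξ hξ).1 (C.aff (C.idx ξ))
  obtain ⟨l, hl⟩ := C.cover y
  have h1 : F ^ a * (C.t (C.idx ξ) / C.t i) ^ ν ∈ van y := by
    obtain ⟨m, rfl⟩ := Nat.exists_eq_succ_of_ne_zero hν0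
    rw [hsplit l, pow_succ (C.t (C.idx ξ) / C.t l)]
    exact mul_mem_van (hG l y hy hl)
      (mul_mem_van (pow_mem (C.mem hl _) _) ((C.van_iff hl _).2 hyU))
  have h2 := van_spec hy (sub_mem (hg y hy) (const_mem_loc 𝐖 y b)) hb
  have h3 : b = 0 := by
    refine const_van (y := y) ?_
    have h4 := add_mem_van h1 (mul_mem_van (neg_mem (one_mem (loc y))) h2)
    convert h4 using 1
    ring
  rw [h3, map_zero, sub_zero] at hb
  have h4 := ord_pos_of_mem_van (hD ξ hξ).1 (mul_ne_zero (pow_ne_zero _ hF0)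
    (pow_ne_zero _ (div_ne_zero (C.ne _) (C.ne i)))) hb
  rw [hord _ ξ (C.idx_spec ξ), hν, ha] at h4
  linarith

include C in
/-- **any two closed points are joined by a chain of curves** -/
theorem conn (hH : Cous (W := 𝐖) 0 ≤ Bd 0) (G : V.X → Prop)
    (hG : ∀ ξ, coheight ξ = 1 → ∀ x y, ξ ⤳ x → x ≠ ξ → ξ ⤳ y → y ≠ ξ → G x → G y)
    {x y : V.X} (hx : IsClosed ({x} : Set V.X)) (hy : IsClosed ({y} : Set V.X)) (h : G x) :
    G y := by
  classical
  have i : ι := C.idx x
  let Col : V.X → Prop := fun z => ∃ y, z ⤳ y ∧ y ≠ z ∧ G y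
  have hA : ∀ p : V.X, IsClosed ({p} : Set V.X) →
      ∃ z, coheight z = 1 ∧ z ∉ C.U i ∧ (G p ↔ Col z) := by
    intro p hp
    obtain ⟨ξ, hξ, h1, h2⟩ := exists_curve hp
    obtain ⟨q, hq, hqU⟩ := exists_out hξ (C.aff i)
    by_cases hqξ : q = ξ
    · subst hqξ
      exact ⟨q, hξ, hqU, fun h => ⟨p, h1, h2, h⟩, fun ⟨w, a, b, c⟩ => hG q hξ w p a b h1 h2 c⟩
    · obtain ⟨z, hz, hz1, hzU⟩ := exists_prime_out (W := 𝐖) (C.aff i) ⟨⟨_, C.gen i⟩⟩ hqU
      have h3 : q ≠ z := fun h => hqξ (by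
        subst h
        exact (eq_of_specializes_of_coheight hq hξ hz1).symm)
      exact ⟨z, hz1, hzU, fun h => ⟨q, hz, h3, hG ξ hξ p q h1 h2 hq hqξ h⟩,
        fun ⟨w, a, b, c⟩ => hG ξ hξ q p hq hqξ h1 h2 (hG z hz1 w q a b hz h3 c)⟩
  obtain ⟨z₁, a₁, b₁, c₁⟩ := hA x hx
  obtain ⟨z₂, a₂, b₂, c₂⟩ := hA y hy
  rw [c₂]
  by_contra hz₂
  let D₁ : Set V.X := {z | (coheight z = 1 ∧ z ∉ C.U i) ∧ Col z}
  let D₂ : Set V.X := {z | (coheight z = 1 ∧ z ∉ C.U i) ∧ ¬ Col z}
  have hcl : ∀ z ∈ D₁, ∀ y, z ⤳ y → ∀ z', z' ⤳ y → coheight z' = 1 → z' ∉ C.U i → z' ∈ D₁ := by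
    intro z hz w hw z' hw' h1 h2
    refine ⟨⟨h1, h2⟩, ?_⟩
    by_cases h3 : z' = z
    · rw [h3]; exact hz.2
    · obtain ⟨p, a, b, c⟩ := hz.2
      refine ⟨w, hw', fun h4 => h3 ?_, hG z hz.1.1 p w a b hw (fun h4 => h3 ?_) c⟩
      · subst h4
        exact (eq_of_specializes_of_coheight hw hz.1.1 h1).symm
      · subst h4
        exact eq_of_specializes_of_coheight hw' h1 hz.1.1
  have hdis : ∀ z ∈ D₁, ∀ y, z ⤳ y → ¬ ∃ z' ∈ D₂, z' ⤳ y := by
    rintro z hz w hw ⟨z', hz', hw'⟩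
    exact hz'.2 (hcl z hz w hw z' hw' hz'.1.1 hz'.1.2).2
  let τ : V.FnField := C.t (C.idx z₂) / C.t i
  let φ : V.X → V.FnField := fun w => if ∃ z' ∈ D₂, z' ⤳ w then τ else 0
  have hφ : φ ∈ Cous (W := 𝐖) 0 := by
    intro p
    by_cases hp : ∃ z' ∈ D₂, z' ⤳ p
    · filter_upwards [ev_avoid ((C.fin i).subset fun z (hz : z ∈ D₁) => hz.1) (x := p)
        fun z hz h => hdis z hz p h hp] with w hw
      by_cases hw' : ∃ z' ∈ D₂, z' ⤳ w
      · simp only [φ, if_pos hp, if_pos hw', sub_self, zero_mem]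
      · have h1 : w ∈ C.U i := by
          by_contra h2
          obtain ⟨z, hz, hz1, hzU⟩ := exists_prime_out (W := 𝐖) (C.aff i) ⟨⟨_, C.gen i⟩⟩ h2
          by_cases h3 : Col z
          · exact hw z ⟨⟨hz1, hzU⟩, h3⟩ hz
          · exact hw' ⟨z, ⟨⟨hz1, hzU⟩, h3⟩, hz⟩
        simp only [φ, if_pos hp, if_neg hw', zero_sub]
        exact neg_mem (sO_zero.2 (C.mem h1 _))
    · filter_upwards [ev_avoid ((C.fin i).subset fun z (hz : z ∈ D₂) => hz.1) (x := p)
        fun z hz h => hp ⟨z, hz, h⟩] with w hw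
      have hw' : ¬ ∃ z' ∈ D₂, z' ⤳ w := fun ⟨z, hz, h⟩ => hw z hz h
      simp only [φ, if_neg hp, if_neg hw', sub_self, zero_mem]
  obtain ⟨f, hf⟩ := hH hφ
  obtain ⟨c, rfl⟩ := C.no_fun i (D := D₁) (fun z hz => hz.1) ⟨z₁, ⟨a₁, b₁⟩, c₁.1 h⟩ hcl (f := f)
    fun z hz w hw => by
      have h1 := sO_zero.1 (hf w)
      simp only [φ, if_neg (hdis z hz w hw), zero_sub] at h1
      exact neg_mem_iff.1 h1
  have h1 := sO_zero.1 (hf z₂)
  simp only [φ, if_pos (show ∃ z' ∈ D₂, z' ⤳ z₂ from ⟨z₂, ⟨⟨a₂, b₂⟩, hz₂⟩, specializes_rfl⟩)] at h1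
  have h2 : τ ∈ loc z₂ := by
    have := add_mem h1 (const_mem_loc 𝐖 z₂ c)
    rwa [sub_add_cancel] at this
  have h3 := mul_mem_van h2 ((C.van_iff (C.idx_spec z₂) i).2 b₂)
  apply one_notMem_van z₂
  convert h3 using 1
  have := C.ne i
  have := C.ne (C.idx z₂)
  simp only [τ]
  field_simp

end Charts

end

end Crest.Agent.N265.Div
end

-- ▼ part N265/Div/Main

/-!
# Row 265, divisibility, part 2 (helper1): torsion implies Bloch

* `cls_eq_of_curve` : if differences of closed points are killed by `N ≠ 0`, two points of one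
  curve have the same class (`Pic⁰` of a curve is divisible);
* `cous_of_smV` : `H¹(O) = 0` for the Čech complex of a model solves all Cousin problems;
* `bloch_of_tors`.
-/

set_option autoImplicit false
set_option linter.unusedSectionVars false
set_option linter.style.haveILetI false

open AlgebraicGeometry CategoryTheory Order TopologicalSpace Topology Filter
open Crest.AlgGeometry.Prelude
open Crest.Agent.R274 Crest.Agent.R274.Br179 Crest.Agent.R274.Brg883 Crest.Agent.R274.Defs_781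
open Crest.Agent.R013.RR7_948 Crest.Agent.R013.RR9_948 Crest.Agent.R013.RR11_948
open Crest.Agent.N265.Br

namespace Crest.Agent.N265.Div

universe u

noncomputable section

variable {k : Type u} [Field k] [IsAlgClosed k] [CharZero k]

theorem sum_sub_const {α A : Type*} [AddCommGroup A] (g : α → A) (E : α →₀ ℤ)
    (hE : (E.sum fun _ n => n) = 0) (c : A) :
    (E.sum fun R m => m • g R) = E.sum fun R m => m • (g R - c) := by
  simp only [Finsupp.sum, smul_sub, Finset.sum_sub_distrib, ← Finset.sum_smul]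
  rw [show ∑ R ∈ E.support, E R = 0 from hE, zero_smul, sub_zero]

section Curve

variable {V : SmPr k 2}

local notation "𝐖" => SmPr.toIntegralKScheme V

theorem isClosed_of_spec {ξ y : V.X} (hξ : coheight ξ = 1) (h : ξ ⤳ y) (hne : y ≠ ξ) :
    IsClosed ({y} : Set V.X) :=
  Crest.Agent.R274.Int2_375.isClosed_singleton_iff.2 fun _ hz => eq_of_spec hξ h hne hz

theorem mk_mapDomain {α : Type*} (g : α → V.X) (E : α →₀ ℤ) :
    (QuotientAddGroup.mk (E.mapDomain g) : CH0 V) = E.sum fun Q m => m • cls V (g Q) := by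
  rw [Finsupp.mapDomain, Finsupp.sum, Finsupp.sum, ← QuotientAddGroup.mk'_apply, map_sum]
  refine Finset.sum_congr rfl fun Q _ => ?_
  rw [cls, ← QuotientAddGroup.mk'_apply, ← map_zsmul, Finsupp.smul_single, smul_eq_mul, mul_one]

/-- two points of one curve -/
theorem cls_eq_of_curve {N : ℤ} (hN : N ≠ 0)
    (hT : ∀ x y : V.X, IsClosed ({x} : Set V.X) → IsClosed ({y} : Set V.X) →
      N • (cls V x - cls V y) = 0)
    {ξ : V.X} (hξ : coheight ξ = 1) {x y : V.X} (hx : ξ ⤳ x) (hx' : x ≠ ξ) (hy : ξ ⤳ y)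
    (hy' : y ≠ ξ) : cls V x = cls V y := by
  obtain ⟨_, _, _, _⟩ := exists_ctx hξ
  obtain ⟨P, hP⟩ := exists_cen hx hx'
  obtain ⟨Q, hQ⟩ := exists_cen hy hy'
  have hD : degD (Finsupp.single P (1 : ℤ) - Finsupp.single Q 1) = 0 := by
    rw [degD_sub, degD_single, degD_single, Crest.Agent.R013.CE5_280.degP_eq_one,
      Crest.Agent.R013.CE5_280.degP_eq_one, sub_self]
  obtain ⟨E, f, -, hE, h⟩ :=
    Crest.Agent.R013.Div6_280.exists_div (Int.natAbs_pos.2 hN) hD
  have h1 := congrArg (fun D => (QuotientAddGroup.mk (Finsupp.mapDomain ctr D) : CH0 V)) h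
  have h2 : (QuotientAddGroup.mk (Finsupp.mapDomain ctr (divf (k := k) f)) : CH0 V) = 0 :=
    (QuotientAddGroup.eq_zero_iff _).2 (cyc_mem_Rat hξ f)
  have h3 : N • (QuotientAddGroup.mk (Finsupp.mapDomain ctr E) : CH0 V) = 0 := by
    rw [Crest.Agent.R013.CE5_280.degD_eq_sum] at hE
    have h4 : (E.sum fun R m => m • cls V (ctr R)) =
        E.sum fun R m => m • (cls V (ctr R) - cls V x) := sum_sub_const _ _ hE _
    rw [mk_mapDomain, h4, Finsupp.sum, Finset.smul_sum]
    refine Finset.sum_eq_zero fun R _ => ?_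
    rw [smul_comm, hT _ _ (isClosed_of_spec hξ (cen_ctr R).1 (cen_ctr R).2.1)
      (isClosed_of_spec hξ hx hx'), smul_zero]
  have h4 : N.natAbs • (QuotientAddGroup.mk (Finsupp.mapDomain ctr E) : CH0 V) = 0 := by
    rw [← natCast_zsmul]
    rcases Int.natAbs_eq N with h5 | h5
    · rw [← h5, h3]
    · rw [← neg_eq_iff_eq_neg.2 h5, neg_smul, h3, neg_zero]
  simp only [Finsupp.mapDomain_sub, Finsupp.mapDomain_add, Finsupp.mapDomain_smul,
    Finsupp.mapDomain_single, QuotientAddGroup.mk_add, QuotientAddGroup.mk_sub,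
    QuotientAddGroup.mk_nsmul, h2, h4, add_zero, ctr_eq hP, ctr_eq hQ] at h1
  exact sub_eq_zero.1 h1

end Curve

theorem of_H1 {F : Type u} [AddCommGroup F] [Module k F] (M : Fam k F 2)
    (h : Subsingleton (M.H 1)) (a : Fin 3 → F) (h1 : a 1 - a 0 ∈ M.M {0, 1})
    (h2 : a 2 - a 0 ∈ M.M {0, 2}) (h3 : a 2 - a 1 ∈ M.M {1, 2}) :
    ∃ f, ∀ i, a i - f ∈ M.M {i} := by
  let c : TC F 2 := fun I => if I = {0, 1} then a 1 - a 0
    else if I = {0, 2} then a 2 - a 0 else if I = {1, 2} then a 2 - a 1 else 0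
  have c0 : c {0, 1} = a 1 - a 0 := rfl
  have c1 : c {0, 2} = a 2 - a 0 := rfl
  have c2 : c {1, 2} = a 2 - a 1 := rfl
  have hc : c ∈ M.coch 1 := by
    intro I
    rcases fin3_cases I with rfl | rfl | rfl | rfl | rfl | rfl | rfl | rfl
    exacts [⟨fun h => absurd h (by decide), fun _ => rfl⟩,
      ⟨fun h => absurd h (by decide), fun _ => rfl⟩, ⟨fun h => absurd h (by decide), fun _ => rfl⟩,
      ⟨fun h => absurd h (by decide), fun _ => rfl⟩, ⟨fun _ => h1, fun h => absurd rfl h⟩,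
      ⟨fun _ => h2, fun h => absurd rfl h⟩, ⟨fun _ => h3, fun h => absurd rfl h⟩,
      ⟨fun h => absurd h (by decide), fun _ => rfl⟩]
  obtain ⟨b, hb⟩ := (M.cech.H_subsingleton_iff 1).1 h ⟨c, hc⟩ (coch_ext M 2 fun I hI => by
    change D k F 2 c I = 0
    rcases fin3_cases I with rfl | rfl | rfl | rfl | rfl | rfl | rfl | rfl
    iterate 7 exact absurd hI (by decide)
    rw [D012, c0, c1, c2]; abel)
  have e0 : b.1 {1} - b.1 {0} = a 1 - a 0 := by
    rw [← D01 (k := k)]
    exact congrFun (congrArg Subtype.val hb) {0, 1}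
  have e1 : b.1 {2} - b.1 {0} = a 2 - a 0 := by
    rw [← D02 (k := k)]
    exact congrFun (congrArg Subtype.val hb) {0, 2}
  refine ⟨a 0 - b.1 {0}, fun i => ?_⟩
  have hi : b.1 {i} ∈ M.M {i} := (b.2 _).1 (Finset.card_singleton i)
  convert hi using 1
  fin_cases i
  · simp
  · rw [← sub_eq_zero, ← sub_eq_zero.2 e0.symm]; simp; abel
  · rw [← sub_eq_zero, ← sub_eq_zero.2 e1.symm]; simp; abel

variable {V : SmoothProjectiveVariety k 2} (M : Model V)

theorem cous_of_smV (h : Subsingleton (((smV M).fam 0).H 1)) :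
    Cous (W := (ofSPV V).toIntegralKScheme) 0 ≤ Bd 0 := by
  intro φ hφ
  choose a ha using fun i : Fin 3 => aff_lift (W := (ofSPV V).toIntegralKScheme)
    (M.affine (Finset.singleton_nonempty i)) (M.nonempty _) φ
    fun x _ => ⟨φ x, (hφ x).mono fun y hy => sO_zero.1 hy⟩
  have key : ∀ i j : Fin 3, a j - a i ∈ ((smV M).fam 0).M {i, j} := fun i j =>
    (mem_fam M).2 fun y hy => by
      have := sub_mem (ha i y (hy i (by simp))) (ha j y (hy j (by simp)))
      rwa [sub_sub_sub_cancel_left] at this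
  obtain ⟨f, hf⟩ := of_H1 _ h a (key 0 1) (key 0 2) (key 1 2)
  refine ⟨f, fun y => sO_zero.2 ?_⟩
  obtain ⟨i, hi⟩ := M.cover y
  have := add_mem (ha i y hi) ((mem_fam M).1 (hf i) y (by simpa using hi))
  rwa [sub_add_sub_cancel] at this

/-- the charts of a model -/
def charts : Charts (ofSPV V) (Fin 3) where
  U i := M.U {i}
  t := M.t
  aff i := M.affine (Finset.singleton_nonempty i)
  gen _ := M.generic_mem _
  ne := M.t_ne
  cover := M.cover
  mem hx j := M.ratio_mem hx j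
  van_iff hx j := M.ratio_van hx j

/-- **torsion implies zero** -/
theorem cls_eq_of_tors (h : Subsingleton (((smV M).fam 0).H 1)) {N : ℤ} (hN : N ≠ 0)
    (hT : ∀ x y : V.X, IsClosed ({x} : Set V.X) → IsClosed ({y} : Set V.X) →
      N • (cls (ofSPV V) x - cls (ofSPV V) y) = 0)
    {x y : V.X} (hx : IsClosed ({x} : Set V.X)) (hy : IsClosed ({y} : Set V.X)) :
    cls (ofSPV V) x = cls (ofSPV V) y :=
  (charts M).conn (cous_of_smV M h) (fun p => cls (ofSPV V) x = cls (ofSPV V) p)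
    (fun _ hξ _ _ h1 h2 h3 h4 h5 => h5.trans (cls_eq_of_curve hN hT hξ h1 h2 h3 h4)) hx hy rfl

/-- the torsion form of Bloch's conjecture -/
def Tors : Prop := ∀ (V : SmoothProjectiveVariety ℂ 2) (M : Model V),
  Subsingleton (((smV M).fam 0).H 1) → Subsingleton (((smV M).fam 0).H 2) →
    ∃ N : ℤ, N ≠ 0 ∧ ∀ x y : V.X, IsClosed ({x} : Set V.X) → IsClosed ({y} : Set V.X) →
      N • (cls (ofSPV V) x - cls (ofSPV V) y) = 0

/-- **DIV** -/
theorem bloch_of_tors (H : Tors) : Bloch := fun V M h1 h2 _ _ hx hy =>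
  let ⟨_, hN, hT⟩ := H V M h1 h2
  cls_eq_of_tors M h1 hN hT hx hy

end

end Crest.Agent.N265.Div
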